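import Vale.Agent.P014T.Mu.All

/-!
# P014 T, block MU: one more prime; the rank of a presentation
-/

set_option linter.all false

noncomputable section

namespace Vale.Agent.P014T.Mu

open NumberField Matrix PowerSeries
open Vale.Agent.P022 (Qb GQ IsConj IsFrob)
open Vale.Agent.P027M.S (Inert)
open Vale.Agent.P022D.W (dec conj_inP)
open Vale.Agent.P022E.GW (Ov Fb Gn)
open Vale.Agent.P004S Vale.Agent.P004S.Wg
open Vale.Agent.P004R.Mu
open Vale.Agent.P004C.Mu (Rb m6 fr_inv rb_in)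
open Vale.Agent.P004C.Mu.Lv (F PS mq pw4 two0)

variable {r : Rp} {S T : Finset ℕ} {k : GQ} {J n c q : ℕ} {χ : GQ → ℕ} {e : GQ → ZMod (2 ^ n)}
  {P : Ideal (𝓞 Qb)}

theorem Tq.pow (t : Tq S n c e) (g : GQ) (j : ℕ) : e (g ^ j) = j * e g := by
  induction j with
  | zero => simpa using t.add 1 1
  | succ j ih => rw [pow_succ, t.add, ih]; push_cast; ring

theorem Tq.conj (t : Tq S n c e) (x g : GQ) : e (x * g * x⁻¹) = e g := by
  have := t.add (x * g * x⁻¹) x
  rw [inv_mul_cancel_right, t.add, add_comm] at this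
  exact (add_right_cancel this).symm

theorem Tq.ine (t : Tq S n c e) (o : Ov q P) (d : ¬ q ∣ c) {g : GQ} (i : Inert P g) : e g = 0 :=
  t.ker g (in_fx o d t.sq.ne_zero i)

/-- primes with a given Frobenius in the tower and in the representation -/
theorem sec (h : Rep r S) (t : Tq S n c e) {N : ℕ} {u : GQ} (hu : ‖ep r u - 1‖ ≤ (1 / 2) ^ N)
    (a : ZMod (2 ^ n)) (K : ℕ) (F : Finset ℕ) : ∃ q ψ, q.Prime ∧ q ∉ F ∧ q ∉ S ∧ ¬ q ∣ c ∧
      q ≡ 1 [MOD 2 ^ N] ∧ IsFrob q ψ ∧ (∃ w ∈ h.Kn K, mt r ψ = mt r u * mt r w) ∧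
      ∀ P φ, Ov q P → Fb q P φ → e φ = a := by
  obtain ⟨l, hl, d⟩ := Nat.exists_prime_and_dvd t.one.ne'
  obtain ⟨Q, o⟩ := ex_pl hl
  obtain ⟨s, s1, s2⟩ := t.ram l Q o d
  have m := h.mt_inert o (t.cy l hl d).2 ((P022.H443.inP Q).pow_mem s1 (a - e u).val)
  have c0 := t.sq.ne_zero
  obtain ⟨q, ψ, hq, qT, fr, ⟨a1, a2⟩, a3⟩ := P022K.Cheb.exists_fr ((((h.Kn_open K).inter
    (P004C.Mu.Cv.En_open h N)).inter (P004R.Cb.fxg_open (Set.finite_singleton 1)
      (Nat.pos_of_ne_zero c0))).preimage (f := fun x => (s ^ (a - e u).val * u)⁻¹ * x)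
    (continuous_const.mul continuous_id)) (g := s ^ (a - e u).val * u) (by simp [one_mem])
    (F ∪ S ∪ c.primeFactors)
  simp only [Finset.mem_union, not_or] at qT
  have E := (mul_inv_cancel_left (s ^ (a - e u).val * u) ψ).symm
  have nd : ¬ q ∣ c := fun d => qT.2 (Nat.mem_primeFactors.2 ⟨hq, d, c0⟩)
  beta_reduce at a1 a2 a3
  generalize (s ^ (a - e u).val * u)⁻¹ * ψ = w at a1 a2 a3 E
  have mψ : mt r ψ = mt r u * mt r w := by rw [E, mt_mul, mt_mul, m, one_mul]
  refine ⟨q, ψ, hq, qT.1.1, qT.1.2, nd, ?_, fr, ⟨w, a1, mψ⟩, fun P φ o f => ?_⟩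
  · have b : ‖ep r w - 1‖ ≤ (1 / 2) ^ N := a2
    have c : ‖ep r ψ - 1‖ ≤ (1 / 2) ^ N := by
      rw [show ep r ψ - 1 = ep r u * (ep r w - 1) + (ep r u - 1) by
        rw [ep, mψ, det_mul, ← ep, ← ep]; ring]
      exact norm_add_le' (by rwa [norm_mul, h.norm_ep, one_mul]) hu
    rw [(h.frob q hq qT.1.2 ψ fr).1] at c
    have := (Padic.norm_int_le_pow_iff_dvd (p := 2) (q - 1) N).1 (by
      rw [_root_.zpow_neg, _root_.zpow_natCast]; simpa using c)
    exact (Nat.modEq_iff_dvd.2 (by exact_mod_cast this)).symm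
  · obtain ⟨x, i, hi, b⟩ := P004R.Wr.fb_cj o f fr
    have := congrArg e (b.symm.trans E)
    rwa [t.conj, t.add, t.ine o nd hi, zero_add, t.add, t.add, t.ker w a3, t.pow, s2, mul_one,
      ZMod.natCast_zmod_val, add_zero, sub_add_cancel] at this

theorem fx_six {R : Type} [CommRing R] {u : R} {B : Matrix (Fin 2) (Fin 2) R} {v : Fin 2 → R}
    (h : (u • B) *ᵥ v = v) (b : B ^ 6 = 1) : u ^ 6 • v = v := by
  have : ∀ j, (u • B) ^ j *ᵥ v = v := fun j => by
    induction j with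
    | zero => rw [pow_zero, one_mulVec]
    | succ j ih => rw [pow_succ, ← mulVec_mulVec, h, ih]
  simpa [smul_pow, b, smul_mulVec] using this 6

theorem mq_two (x : Rb J) : x + x = 0 := by
  rw [← two_mul, ← map_ofNat (mq J) 2, show (OfNat.ofNat 2 : PS) = 0 from two0, map_zero, zero_mul]

/-- **one more prime** -/
theorem zq_add (h : Rep r S) (le : S ⊆ T) (o : Ov q P) (nT : q ∉ T) {φ : GQ} (f : Fb q P φ)
    (od : Odd (χ φ)) (un : ∀ P, Ov q P → ∀ g, Inert P g → χ g = 0) (fi : Finite (Zq r T k J χ)) :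
    Finite (Zq r (insert q T) k J χ) ∧
      Nat.card (Zq r (insert q T) k J χ) ≤ 16 * Nat.card (Zq r T k J χ) := by
  rw [zq_eq] at fi ⊢
  rw [zq_eq]
  have nS : q ∉ S := fun a => nT (le a)
  have q2 := h.ne_two nS
  obtain ⟨τ, -, t, -⟩ := ex_st o
  have a1 : ∀ P, Ov q P → ∀ g, Inert P g → ag (rb r) J χ g = 1 := fun P o g i => by
    rw [ag, un P o g i, rb_in h o nS i, pow_zero, one_smul, Matrix.map_one _ (map_zero _) (map_one _)]
  have cj : ∀ x, Zg (rb r) (insert q T) k J χ x → ∀ s g, ag (rb r) J χ g = 1 →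
      ag (rb r) J χ (s * g * s⁻¹) = 1 → x (s * g * s⁻¹) = ag (rb r) J χ s *ᵥ x g :=
    fun x m s g _ b => by
      have := m.co (s * g * s⁻¹) s
      rw [inv_mul_cancel_right, m.co, b, one_mulVec, add_comm] at this
      exact (add_right_cancel this).symm
  have ad : ∀ x, Zg (rb r) (insert q T) k J χ x → ∀ g j, Inert P g → x (g * j) = x g + x j :=
    fun x m g j i => by rw [m.co, a1 P o g i, one_mulVec]
  have w2 : ∀ v : Fin 2 → Rb J, v + v = 0 := fun v => funext fun i => mq_two _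
  have key : ∀ x, Zg (rb r) (insert q T) k J χ x → ∀ i, ∀ j < J - 2, co J j (x τ i) = 0 :=
    fun x m i j hj => by
      obtain ⟨U, hU, u⟩ := m.opn
      have e := (fr_inv o q2 f (U := ⊤) hU w2 (f := x) (fun g a j _ => ad x m g j a.2) u
        ⟨trivial, t.1⟩).2
      rw [cj x m φ τ (a1 P o τ t.1) (a1 P o _ (conj_inP (P022D.W.phi_mem o.1 o.2.1 f) t.1))] at e
      have e := congrFun (fx_six e (by
        rw [← RingHom.mapMatrix_apply, ← map_pow, show rb r φ ^ 6 = 1 by
          rw [← m6 _ (det_rb h φ)]; simp only [pow_succ, pow_zero, one_mul, mul_assoc], map_one])) i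
      obtain ⟨b, hb⟩ := od
      obtain ⟨s, hs⟩ := pw4 (3 * b + 1)
      obtain ⟨p, hp⟩ := Ideal.Quotient.mk_surjective (x τ i)
      obtain ⟨w, hw⟩ := (isUnit_iff_constantCoeff.2 (by simp) : IsUnit (1 + X * s)).exists_right_inv
      rw [Pi.smul_apply, ← hp, ← pow_mul, show χ φ * 6 = 4 * (3 * b + 1) + 2 by omega, ← map_pow,
        hs] at e
      have e2 : mq J (X ^ 2 * p) = mq J 0 := by
        have := congrArg (mq J) hw
        simp only [smul_eq_mul, map_add, map_mul, map_one, map_zero] at e this ⊢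
        linear_combination mq J w * e - mq J (X ^ 2) * mq J p * this
      rw [← hp, co_mq (by omega), P004C.Mu.Lv.cf e2 (by omega), map_zero]
  have := cnt_le (Z := {x | Zg (rb r) (insert q T) k J χ x}) (Y := Set.univ)
    (W := {x | Zg (rb r) T k J χ x})
    (fun x => fun (i : Fin 2) (j : Fin 2) => co J (J - 1 - j) (x τ i)) id (fun _ _ => trivial)
    (fun x m s n e => ?_) (fun x _ y _ s _ _ _ d => sub_left_injective d) inferInstance fi
  · simpa using this
  have z : (x - s) τ = 0 := sub_eq_zero.2 (funext fun i => by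
    obtain ⟨p, hp⟩ := Ideal.Quotient.mk_surjective (x τ i)
    obtain ⟨p', hp'⟩ := Ideal.Quotient.mk_surjective (s τ i)
    rw [← hp, ← hp']
    refine mq_eq.2 fun j hj => ?_
    rw [← co_mq hj, ← co_mq hj, show mq J p = _ from hp, show mq J p' = _ from hp']
    by_cases a : j < J - 2
    · rw [key x m i j a, key s n i j a]
    · have := congrFun (congrFun e i) ⟨J - 1 - j, by omega⟩
      rwa [show J - 1 - (J - 1 - j) = j by omega] at this)
  have m := Zg.sub m n
  generalize x - s = x at m z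
  refine ⟨m.co, m.opn, ?_, m.inf⟩
  rintro g ⟨l, a, Q, o', i⟩
  by_cases b : l = q
  · subst b
    obtain ⟨y, hy, -⟩ := ex_conj o o'
    obtain ⟨U, hU, u⟩ := m.opn
    obtain ⟨j, hj⟩ := (lt l P o).1 τ 1 _ q2 t (hy g i) U hU
    have e := cj x m y _ (a1 P o _ (hy g i)) (by simpa [mul_assoc] using a1 Q o' g i)
    rw [hj _ x (fun v => by rw [pow_one, two_smul, w2]) (fun g _ => u g) fun g j a _ => ad x m g j a,
      z, smul_zero, mulVec_zero] at e
    simpa [mul_assoc] using e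
  · exact m.un g ⟨l, by simpa [b] using a, Q, o', i⟩

theorem card_rb (J : ℕ) : Nat.card (Rb J) = 2 ^ J := by
  rw [Nat.card_eq_of_bijective (fun (x : Rb J) (i : Fin J) => co J i x) ⟨fun x y e => ?_, fun v =>
    ⟨mq J (mk fun i => if h : i < J then v ⟨i, h⟩ else 0), funext fun i => by
      beta_reduce
      rw [co_mq i.2, coeff_mk, dif_pos i.2]⟩⟩]
  · simp
  obtain ⟨p, rfl⟩ := Ideal.Quotient.mk_surjective x
  obtain ⟨q, rfl⟩ := Ideal.Quotient.mk_surjective y
  exact mq_eq.2 fun i hi => (co_mq hi p).symm.trans ((congrFun e ⟨i, hi⟩).trans (co_mq hi q))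

/-- **few solutions: the rows are independent** -/
theorem row_ind {ι κ : Type} [Fintype ι] [Fintype κ] {Q : Matrix ι κ PS} {d B : ℕ}
    (c : Fintype.card κ = Fintype.card ι + d)
    (h : Nat.card {v : κ → Rb (B + 1) | Q.map (mq _) *ᵥ v = 0} ≤ 2 ^ (d * (B + 1) + B))
    {w : ι → PS} (e : w ᵥ* Q = 0) : w = 0 := by
  classical
  by_contra n
  obtain ⟨j, -⟩ := Function.ne_iff.1 n
  obtain ⟨i, -, hi⟩ := Finset.univ.exists_min_image (fun i => (w i).order) ⟨j, Finset.mem_univ j⟩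
  have dv : ∀ j, w i ∣ w j := fun j => (ValuationRing.dvd_total (w i) (w j)).elim id fun ⟨y, hy⟩ => by
    by_cases z : w j = 0
    · exact z ▸ dvd_zero _
    have := hi j (Finset.mem_univ j)
    rw [hy, order_mul] at this
    have y0 : y.order = 0 := le_antisymm ((ENat.add_le_add_iff_left (order_eq_top.not.2 z)).1
      (this.trans_eq (add_zero _).symm)) bot_le
    obtain ⟨u, rfl⟩ := isUnit_iff_constantCoeff.2 (isUnit_iff_ne_zero.2 fun a =>
      order_ne_zero_iff_constCoeff_eq_zero.2 a y0)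
    exact hy ▸ (Units.mul_right_dvd.2 dvd_rfl)
  choose y hy using dv
  have w0 : w i ≠ 0 := fun a => n (funext fun j => by rw [hy j, a, zero_mul]; rfl)
  have yi : y i = 1 := mul_left_cancel₀ w0 ((hy i).symm.trans (mul_one _).symm)
  have yq : y ᵥ* Q = 0 := (smul_eq_zero.1 (by
    rw [← smul_vecMul, show w i • y = w from funext fun j => (hy j).symm, e])).resolve_left w0
  have f : Finite (Rb (B + 1)) := Nat.finite_of_card_ne_zero (by rw [card_rb]; positivity)
  have z : ∀ v, (mq (B + 1) ∘ y) ⬝ᵥ (Q.map (mq _) *ᵥ v) = 0 := fun v => by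
    rw [dotProduct_mulVec, show (mq (B + 1) ∘ y) ᵥ* Q.map (mq _) = 0 from funext fun t => by
      rw [← RingHom.map_vecMul, yq]; exact map_zero _, zero_dotProduct]
  have := (cnt_le (Z := Set.univ) (Y := Set.univ)
    (W := {v : κ → Rb (B + 1) | Q.map (mq _) *ᵥ v = 0})
    (fun v (j : {j // j ≠ i}) => (Q.map (mq _) *ᵥ v) j) id (fun _ _ => trivial) (fun x _ s _ a => ?_)
    (fun x _ y _ s _ _ _ d => sub_left_injective d) inferInstance inferInstance).2.trans
      (Nat.mul_le_mul_left _ h)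
  · simp only [Nat.card_univ, Nat.card_fun, card_rb, Nat.card_eq_fintype_card, c,
      Fintype.card_subtype_compl, Fintype.card_unique, ← pow_mul, ← pow_add] at this
    have := (Nat.pow_le_pow_iff_right one_lt_two).1 this
    obtain ⟨m, hm⟩ := Nat.exists_eq_succ_of_ne_zero (Fintype.card_pos_iff.2 ⟨i⟩).ne'
    rw [hm] at this
    simp only [Nat.succ_eq_add_one, Nat.add_sub_cancel] at this
    nlinarith
  have b : ∀ j, j ≠ i → (Q.map (mq _) *ᵥ (x - s)) j = 0 := fun j m => by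
    rw [mulVec_sub]; exact sub_eq_zero.2 (congrFun a ⟨j, m⟩)
  funext j
  by_cases m : j = i
  · have := z (x - s)
    rwa [dotProduct, Finset.sum_eq_single i (fun j _ m => by rw [b j m, mul_zero]) (by simp),
      Function.comp, yi, map_one, one_mul, ← m] at this
  · exact b j m

end Vale.Agent.P014T.Mu
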