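import Vale.Agent.P014T.Mu.Cnt
import Vale.Agent.P014T.Mu.Add
import Vale.Agent.P004F.Alg.Fit

/-!
# P014 T, block MU: a square presentation whose determinant is not zero modulo two
-/

set_option linter.all false

noncomputable section

namespace Vale.Agent.P014T.Mu

open Matrix PowerSeries Submodule
open Vale.Agent.P004C.Mu (Rb)
open Vale.Agent.P004C.Mu.Lv (F PS mq)

theorem cnt_eq {ι κ : Type} [Fintype ι] [Fintype κ] {d B : ℕ} {Q : Matrix ι κ (Rb (B + 1))}
    (c : Fintype.card ι + d ≤ Fintype.card κ)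
    (h : Nat.card {v : κ → Rb (B + 1) | Q *ᵥ v = 0} ≤ 2 ^ (d * (B + 1) + B)) :
    Fintype.card κ = Fintype.card ι + d := by
  have f : Finite (Rb (B + 1)) := Nat.finite_of_card_ne_zero (by rw [card_rb]; positivity)
  have := (cnt_le (Z := Set.univ) (Y := Set.univ) (W := {v : κ → Rb (B + 1) | Q *ᵥ v = 0})
    (fun v => Q *ᵥ v) id (fun _ _ => trivial) (fun x _ s _ a => (mulVec_sub _ _ _).trans
      (sub_eq_zero.2 a)) (fun x _ y _ s _ _ _ d => sub_left_injective d) inferInstance
    inferInstance).2.trans (Nat.mul_le_mul_left _ h)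
  simp only [Nat.card_univ, Nat.card_fun, card_rb, Nat.card_eq_fintype_card, ← pow_mul,
    ← pow_add] at this
  have := (Nat.pow_le_pow_iff_right one_lt_two).1 this
  by_contra n
  have : Fintype.card ι + d + 1 ≤ Fintype.card κ := by omega
  nlinarith

theorem ex_sq {O : Type} [CommRing O] [IsDomain O] {n : ℕ} {v : Fin n → Fin (n + 2) → O}
    (h : LinearIndependent O v) : ∃ x y : Fin (n + 2) → O,
      (of (Fin.cons x (Fin.cons y v : Fin (n + 1) → _) : Fin (n + 2) → Fin (n + 2) → O)).det ≠ 0 := by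
  obtain ⟨y, hy⟩ := exists_linearIndependent_cons_of_lt_finrank h (by simp)
  obtain ⟨x, hx⟩ := exists_linearIndependent_cons_of_lt_finrank hy (by simp)
  refine ⟨x, y, fun e => ?_⟩
  obtain ⟨w, w0, hw⟩ := exists_vecMul_eq_zero_iff.2 e
  exact w0 (funext (Fintype.linearIndependent_iff.1 hx w (by
    rw [← hw, vecMul_eq_sum]; rfl)))

/-- **few solutions modulo `(2, T ^ (B + 1))`: a good square presentation** -/
theorem mu_pr {R ι : Type} [CommRing R] [Fintype ι] {g B : ℕ} (π : R →+* PS)
    (hπ : Function.Surjective π) (A : Matrix ι (Fin g) R) (c : Fintype.card ι + 2 ≤ g)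
    (h : Nat.card {v : Fin g → Rb (B + 1) | A.map ((mq _).comp π) *ᵥ v = 0} ≤
      2 ^ (2 * (B + 1) + B)) : ∃ (x : Fin 2 → Fin g → R) (d : R),
      P004F.Alg.Pr ((Fin g → R) ⧸ (span R (Set.range A) ⊔ span R (Set.range x))) d ∧ π d ≠ 0 := by
  have e := cnt_eq (by rwa [Fintype.card_fin]) h
  have li : LinearIndependent PS (A.map π : ι → Fin g → PS) :=
    Fintype.linearIndependent_iff.2 fun w hw => congrFun (row_ind (Q := A.map π) e h
      ((vecMul_eq_sum _ _).trans hw))
  rw [Fintype.card_fin] at e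
  subst e
  let s := (Fintype.equivFin ι).symm
  obtain ⟨x, y, hd⟩ := ex_sq (li.comp s s.injective)
  choose σ hσ using hπ
  let M : Matrix (Fin (Fintype.card ι + 2)) (Fin (Fintype.card ι + 2)) R :=
    of (Fin.cons (σ ∘ x) (Fin.cons (σ ∘ y) (A ∘ s) : Fin (_ + 1) → _))
  have sp : span R (Set.range A) ⊔ span R (Set.range ![σ ∘ x, σ ∘ y]) = span R (Set.range M) := by
    rw [← span_union]
    congr 1
    show _ = Set.range (Fin.cons _ _ : Fin (_ + 2) → _)
    rw [Fin.range_cons, Fin.range_cons, show Set.range (A ∘ s) = Set.range A from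
      s.surjective.range_comp _]
    generalize Set.range A = t
    ext z
    simp [or_comm, or_left_comm]
  refine ⟨![σ ∘ x, σ ∘ y], M.det, ⟨_, _, inferInstance, fun j => mkQ _ (Pi.single j 1), M, ?_,
    fun v => ?_, rfl⟩, ?_⟩
  · rw [show (fun j => mkQ _ (Pi.single j 1)) = mkQ _ ∘ Pi.basisFun R _ from funext fun j => by simp,
      Set.range_comp, ← map_span, Module.Basis.span_eq, Submodule.map_top, range_mkQ]
  · simp only [← map_smul, ← map_sum]
    rw [← pi_eq_sum_univ', mkQ_apply, Quotient.mk_eq_zero, sp]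
    exact (mem_span_range_iff_exists_fun R).trans
      (exists_congr fun u => by rw [vecMul_eq_sum, eq_comm])
  · rw [RingHom.map_det]
    refine ne_of_eq_of_ne (congrArg det (Matrix.ext fun i j => ?_)) hd
    refine Fin.cases (hσ _) (fun i => Fin.cases (hσ _) (fun i => rfl) i) i

end Vale.Agent.P014T.Mu
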