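import Vale.Agent.P014T.Mu.Sec
import Vale.Agent.P014T.Mu.Sq
import Vale.Agent.P014T.Pq.All
import Vale.Agent.P014T.Ba.Min
import Vale.Agent.P004F.Pat.Ul

/-!
# P014 T, block MU: a presentation of the cocycles has no `μ`-invariant
-/

set_option linter.all false

noncomputable section

namespace Vale.Agent.P014T.Mu

open Matrix PowerSeries Filter
open Vale.Agent.P022 (GQ)
open Vale.Agent.P004S (Rp)
open Vale.Agent.P004C.Mu (Rb ab)
open Vale.Agent.P004C.Mu.Lv (F PS mq two0)
open Vale.Agent.P004F.Pr (ac)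
open Vale.Agent.P004F.Pat (La Rk Im U Sy)
open Ba (st st_map)

variable {R O ι κ : Type} [CommRing R] [CommRing O] [Fintype ι] [Fintype κ] [DecidableEq ι]
  [DecidableEq κ] {B J : ℕ} {r : Rp} {T : Finset ℕ} {k : GQ} {χ : GQ → ℕ}

/-- few solutions: two more rows give a determinant which is not zero modulo two -/
theorem mu_st (π : O →+* PS) (hπ : Function.Surjective π) (e : κ ≃ ι ⊕ Fin 2) (A : Matrix ι κ O)
    (h : Nat.card {v : κ → Rb (B + 1) | A.map ((mq _).comp π) *ᵥ v = 0} ≤ 2 ^ (2 * (B + 1) + B)) :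
    ∃ x : Matrix (Fin 2) κ O, π (st e A x).det ≠ 0 := by
  have c : Fintype.card κ = Fintype.card ι + 2 := by simpa using Fintype.card_congr e
  have li : LinearIndependent PS (A.map π : ι → κ → PS) :=
    Fintype.linearIndependent_iff.2 fun w hw => congrFun (row_ind (Q := A.map π) c h
      ((vecMul_eq_sum _ _).trans hw))
  let s := Fintype.equivFin ι
  obtain ⟨y, hy⟩ := exists_linearIndependent_cons_of_lt_finrank (li.comp _ s.symm.injective)
    (by simp [c])
  obtain ⟨x, hx⟩ := exists_linearIndependent_cons_of_lt_finrank hy (by simp [c])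
  choose σ hσ using hπ
  refine ⟨of ![σ ∘ x, σ ∘ y], fun z => ?_⟩
  rw [RingHom.map_det, RingHom.mapMatrix_apply, st_map] at z
  obtain ⟨w, w0, hw⟩ := exists_vecMul_eq_zero_iff.2 z
  have := hx.comp (Sum.elim (fun i => (s i).succ.succ) ![0, Fin.succ 0] ∘ e) (Function.Injective.comp
    (by rintro (i | i) (j | j) <;> (try fin_cases i) <;> (try fin_cases j) <;>
      simp [Fin.ext_iff, Fin.val_inj]) e.injective)
  refine w0 (funext (Fintype.linearIndependent_iff.1 this w ?_))
  rw [← hw, vecMul_eq_sum]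
  refine Finset.sum_congr rfl fun l _ => congrArg _ (funext fun i => ?_)
  obtain ⟨l | l, rfl⟩ := e.symm.surjective l
  · simp [st]
    exact congrArg (fun l => π (A l i)) (s.symm_apply_apply l)
  · fin_cases l <;> simp [st, hσ]

/-- the solutions modulo `(2, T ^ J)` are the cocycles -/
theorem card_sol (f : R →+* Rb J) {Q : Matrix ι κ R} {a : GQ → Matrix (Fin 2) (Fin 2) R}
    (ha : ∀ g, (a g).map f = ab r J χ g) {u : GQ → Matrix (Fin 2) κ R}
    (bij : ∀ (M : Type) [AddCommGroup M] [Module R M], Set.BijOn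
      (fun (v : κ → M) γ => ac (u γ) v) {v | ac Q v = 0} (Pq.Zq M T a k)) :
    Nat.card {v : κ → Rb J | Q.map f *ᵥ v = 0} = Nat.card (Zq r T k J χ) := by
  let := f.toAlgebra
  have := Nat.card_congr (bij (Rb J)).equiv
  rw [Zq]
  simp only [← ha]
  exact this

/-- reduction modulo `(2, T ^ J)` -/
theorem ex_red {j : ℕ} (h : J ≤ j + 1) : ∃ f : Rk (j + 1) →+* Rb J,
    ∀ x : La, f (Ideal.Quotient.mk _ x) = mq J (PowerSeries.map PadicInt.toZMod x) :=
  ⟨Ideal.Quotient.lift _ ((mq J).comp (PowerSeries.map PadicInt.toZMod)) fun x m => by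
    obtain ⟨a, b, rfl⟩ := Ideal.mem_span_pair.1 m
    have : mq J (X ^ (j + 1)) = 0 := Ideal.Quotient.eq_zero_iff_mem.2
      (Ideal.mem_span_singleton.2 (pow_dvd_pow _ h))
    rw [RingHom.comp_apply, map_add, map_mul, map_mul, map_pow, map_pow, map_X, map_ofNat,
      show (OfNat.ofNat 2 : PS) = 0 from two0, zero_pow j.succ_ne_zero, mul_zero, zero_add, map_mul,
      this, mul_zero], fun _ => rfl⟩

/-- **one level is enough** -/
theorem lmu0 (π : O →+* PS) (hπ : Function.Surjective π) (e : κ ≃ ι ⊕ Fin 2) (A : Matrix ι κ O)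
    (f : R →+* Rb (B + 1)) {Q : Matrix ι κ R} (hQ : Q.map f = A.map ((mq _).comp π))
    {a : GQ → Matrix (Fin 2) (Fin 2) R} (ha : ∀ g, (a g).map f = ab r (B + 1) χ g)
    {u : GQ → Matrix (Fin 2) κ R} (bij : ∀ (M : Type) [AddCommGroup M] [Module R M], Set.BijOn
      (fun (v : κ → M) γ => ac (u γ) v) {v | ac Q v = 0} (Pq.Zq M T a k))
    (cnt : Nat.card (Zq r T k (B + 1) χ) ≤ 2 ^ (2 * (B + 1) + B)) :
    ∃ x : Matrix (Fin 2) κ O, π (st e A x).det ≠ 0 :=
  mu_st π hπ e A (by rwa [← hQ, card_sol f ha bij])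

theorem map_sur : Function.Surjective (PowerSeries.map PadicInt.toZMod : La →+* PS) :=
  PowerSeries.map_surjective _ (ZMod.ringHom_surjective _)

/-- the reduction of the limit -/
theorem um_red (Q : ∀ j, Matrix ι κ (Rk (j + 1))) (J : ℕ) : ∀ᶠ j in U, ∀ f : Rk (j + 1) →+* Rb J,
    (∀ x : La, f (Ideal.Quotient.mk _ x) = mq J (PowerSeries.map PadicInt.toZMod x)) →
    (Q j).map f = (Sy.succ.um Q).map ((mq J).comp (PowerSeries.map PadicInt.toZMod)) :=
  (Sy.succ.um_spec Q (J + 1)).mono fun j a f hf => Matrix.ext fun x y => by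
    obtain ⟨z, hz⟩ := Ideal.Quotient.mk_surjective (Q j x y)
    obtain ⟨f', h'⟩ := ex_red J.le_succ
    have := h' (z - Sy.succ.um Q x y)
    rw [Ideal.Quotient.eq_zero_iff_mem.2 (a x y z hz), map_zero, map_sub, map_sub, eq_comm,
      sub_eq_zero] at this
    rw [map_apply, ← hz, hf, this]; rfl

end Vale.Agent.P014T.Mu
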