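import Vale.Agent.P004C.Mu.St

/-!
# P014 T, block MU: cyclotomic towers over `ℚ` without `μ`-invariant (words, export)
-/

set_option linter.all false

noncomputable section

namespace Vale.Agent.P014T.Mu

open NumberField Matrix
open Vale.Agent.P022 (Qb GQ IsConj)
open Vale.Agent.P027M.S (Inert)
open Vale.Agent.P022E.GW (Ov Fb)
open Vale.Agent.P022K.G2 (In)
open Vale.Agent.P004S (Rp Rep Pl nu)
open Vale.Agent.P004R (Fx)
open Vale.Agent.P004F.En (Big Gq)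
open Vale.Agent.P004F.Pr (ac)
open Vale.Agent.P004C.Mu (Rb ab)

/-- a cyclic layer of degree `2 ^ n` in `ℚ(ζ_c)`, real, totally ramified at the primes of `c`;
the primes of `S` have two places above them -/
structure Tq (S : Finset ℕ) (n c : ℕ) (e : GQ → ZMod (2 ^ n)) : Prop where
  add : ∀ g h, e (g * h) = e g + e h
  ker : ∀ g, Fx {1} c g → e g = 0
  cj : ∀ k, IsConj k → e k = 0
  sq : Squarefree c
  one : 1 < c
  cy : ∀ q : ℕ, q.Prime → q ∣ c → q % 2 ^ (n + 1) = 1 ∧ q ∉ S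
  ram : ∀ q P, Ov q P → q ∣ c → ∃ t, Inert P t ∧ e t = 1
  par : ∀ g, ((e g).val : ZMod 2) = nu c g
  fro : ∀ p ∈ S, ∀ P φ, Ov p P → Fb p P φ → (e φ).val % 4 = 2

/-- the cocycles which vanish at `k`, unramified outside `T` -/
def Zq (r : Rp) (T : Finset ℕ) (k : GQ) (J : ℕ) (χ : GQ → ℕ) : Set (GQ → Fin 2 → Rb J) :=
  {x | (∀ g h, x (g * h) = x g + ac (ab r J χ g) (x h)) ∧
    (∃ U : Subgroup GQ, IsOpen (U : Set GQ) ∧ ∀ w ∈ U, x w = 0) ∧
    (∀ g ∈ In T, x g = 0) ∧ x k = 0}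

/-- **the export** -/
def MUQ : Prop := ∀ (r : Rp) (S : Finset ℕ) (pl : Pl) (k : GQ), Rep r S → (∀ p ∈ S, p.Prime) →
  IsConj k → (∃ h, Big r h) → ∃ m B : ℕ, ∀ (n : ℕ) (F : Finset ℕ), 3 ≤ n →
    ∃ (c : ℕ) (e : GQ → ZMod (2 ^ n)), Tq S n c e ∧ c.primeFactors.card ≤ m ∧
      (∀ q : ℕ, q.Prime → q ∣ c → q ∉ F ∧ Gq r m (pl.σ q)) ∧ ∀ J ≤ 2 ^ n,
        Finite (Zq r (S ∪ c.primeFactors) k J fun g => (e g).val) ∧
        Nat.card (Zq r (S ∪ c.primeFactors) k J fun g => (e g).val) ≤ 2 ^ (2 * J + B)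

end Vale.Agent.P014T.Mu
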