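import Vale.Agent.P014T.Mu.Irr
import Vale.Agent.P004S.Rec

/-!
# P014 T, block MU: the reducible case and the export
-/

set_option linter.all false

noncomputable section

namespace Vale.Agent.P014T.Mu

open NumberField Matrix
open Vale.Agent.P022 (Qb GQ IsConj)
open Vale.Agent.P022K
open Vale.Agent.P027M.S (Inert)
open Vale.Agent.P022D.W (dec)
open Vale.Agent.P022E.GW (Ov Fb Gn)
open Vale.Agent.P004S Vale.Agent.P004S.Wg Vale.Agent.P004S.Rc
open Vale.Agent.P004R.Mu
open Vale.Agent.P004F.En (Big Gq)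
open Vale.Agent.P004C.Mu (Rb)
open Vale.Agent.P004C.Mu.Lv (F mq)
open Vale.Agent.P004C.Mu.Gl (Zt)

variable {r : Rp} {S T : Finset ℕ} {k : GQ} {J q : ℕ} {χ : GQ → ℕ} {f : GQ → ZMod 8}

/-- the symbol `(5, 2)` is not trivial at two -/
theorem h25 (pl : Pl) : G2.cup (nu 5) (nu 2) ∉ G2.B2 ∅ (dec (pl.P 2)) (G2.tr GQ F) := fun h => by
  obtain ⟨cj, φ, hφ⟩ := ex_k
  obtain ⟨c, cP, cw⟩ := cn_of pl.P pl.ov (.mk φ)
  have p5 := Nat.prime_five
  have o := pl.ov 5 p5
  have ch : ∀ d P, G2.Ch (dec P) (nu d) := fun d P => (G2.ch_iff (G2.dec_closed P)).1 (nu_ch d _)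
  have hz := G2.cup_z2 ((G2.ch_iff isClosed_univ).1 (nu_ch 5 ⊤))
    ((G2.ch_iff isClosed_univ).1 (nu_ch 2 ⊤))
  have key := G2.one P022E.GW.oneC (G2.uch 2) (G2.tam 2) (ZMod 2) ⊤ (G2.cup (nu 5) (nu 2)) Unit
    (fun _ => 5) (fun _ => pl.P 5) (fun _ => pl.σ 5) (fun _ => nu 2) (fun _ => nu 5) (fun _ => 1)
    isOpen_univ (by rwa [G2.ch_om_two])
    (fun _ => ⟨o, by decide, pl.fb 5 p5, le_inf le_top (G2.le_gz_two _)⟩) (fun _ _ _ _ _ => rfl)
    (fun _ => ⟨ch _ _, ch _ _, fun g i => ⟨nu_inert o (by decide) (by decide) i, by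
      rw [ZMod.castHom_self, RingHom.id_apply, ka_nu p5, mul_one]; rfl⟩,
      G2.B2.congr (G2.cup_skew (ch 5 _) (ch 2 _)) (fun g _ j _ => CharTwo.sub_eq_add (R := F) _ _)
        fun _ _ => rfl⟩) fun x hx n => ?_
  · have := nu_fb o (by decide) (pl.fb 5 p5) (d := 2) (by decide)
    rw [if_pos (by simpa using key)] at this
    norm_num at this
  obtain ⟨v, hv, m⟩ := Aq.ab_pl hx
  rw [G2.ch_om_two]
  refine Aq.loc_all c hz hv ?_ m
  rcases hv with rfl | hv
  · refine G2.b2_of_zero fun g hg j _ => ?_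
    rw [Aq.D_zero, cw, ← SetLike.mem_coe, G2.st_conj hφ] at hg
    rcases hg with rfl | rfl
    · rw [G2.cup, mem_kn.1 (one_mem _), zero_mul]
    · rw [G2.cup, show nu 5 g = 0 from nu_nat_conj 5 ⟨φ, hφ⟩, zero_mul]
  rw [Aq.D_prime c hv, cP]
  by_cases s : v = 2
  · subst s; exact h
  have ov := pl.ov v hv
  have n5 : v ≠ 5 := fun e => by
    obtain ⟨g, e⟩ := G2.Plc.ab_trans (G2.mem_ab_fp.2 ⟨v, rfl, ov⟩) m
    exact n () g trivial (by rw [e, ‹v = 5›])
  have nd : ∀ p : ℕ, p.Prime → v ≠ p → ¬ (v : ℤ) ∣ p := fun p a b d =>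
    b ((Nat.prime_dvd_prime_iff_eq hv a).1 (Int.natCast_dvd_natCast.1 d))
  have := G2.unr 2 (ZMod 2) ⊤ v _ (G2.cup (nu 5) (nu 2)) isOpen_univ ov
    (by rw [top_inf_eq]; exact G2.cup_z2 (ch _ _) (ch _ _)) fun g _ j _ i _ a => by
      simp only [G2.cup, nu_mul, show nu 5 i = 0 from nu_inert ov s (nd 5 p5 n5) a,
        show nu 2 i = 0 from nu_inert ov s (nd 2 Nat.prime_two s) a, add_zero, and_self]
  rwa [top_inf_eq] at this

theorem b_neg : ∀ a : ZMod 8, b1 a = 0 → b1 (-a) = 0 ∧ b2 (-a) = b2 a := by decide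

/-- the characters which lift -/
theorem sca (b : Bq S q f) (hq : q.Prime) (pr : ∀ p ∈ S, p.Prime) (h2 : 2 ∈ S) (pl : Pl)
    (hk : IsConj k) {X : GQ → Nn Unit} (co : ∀ g h, X (g * h) = X g + L5 (f g) * X h)
    {U : Subgroup GQ} (hU : IsOpen (U : Set GQ)) (op : ∀ u ∈ U, X u = 0)
    (un : Un (fun l => l ∉ S ∧ l ≠ q) fun g => X g 0 ()) (inf : X k 0 () = 0) :
    (fun g => X g 0 ()) = nu (1 : ℕ) ∨ (fun g => X g 0 ()) = nu q := by
  obtain ⟨V, hV, v⟩ := b.opn
  have a0 : ∀ g h, X (g * h) 0 () = X g 0 () + X h 0 () := fun g h => by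
    rw [co, Matrix.add_apply, (row _ _).1]
  obtain ⟨n, sn, e⟩ := ex_nu (x := fun g => X g 0 ()) a0 hU (fun u m => by rw [op u m]; rfl) hk inf
  have z : b1 0 = 0 ∧ b2 0 = 0 := by decide
  have ev : ∀ p ∈ S, ∀ g ∈ dec (pl.P p), b1 (f g) = 0 := fun p m g a => by
    have o := pl.ov p (pr p m)
    have s := pl.fb p (pr p m)
    exact (b.par g).trans (lt.dec_le o s (kn_open q) ((b.par _).symm.trans
      (b_two _ (b.fro p m _ _ o s)).2.1) (fun i hi => (b.par i).symm.trans
        (by rw [b.unr p _ o (b.nS p m o.1) i hi, z.1])) a)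
  have hs : ∀ p ∈ S, Hs (dec (pl.P p)) (fun g => b2 (f g)) (nu n) fun g => X g 2 () := fun p m =>
    ⟨⟨U ⊓ V, hU.inter hV, fun u a => by
      rw [← e]; simp only [v u a.2, op u a.1, z.2]; exact ⟨trivial, rfl, rfl⟩⟩,
    fun g a h _ => by rw [b.add, b2_add, ev p m g a, zero_mul, add_zero],
    fun g _ h _ => nu_mul _ g h, fun g a h _ => by
      rw [co, Matrix.add_apply, (row _ _).2.2.1, ev p m g a, zero_smul, add_zero, ← e, add_assoc]
      rfl⟩
  have d : n ∣ 2 * q := sq_dvd sn fun l hl d => by_contra fun c => by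
    have l2 : l ≠ 2 := fun a => c (a ▸ dvd_mul_right _ _)
    have o := pl.ov l hl
    have t := pl.gn l hl l2
    have n1 := nu_tau o l2 (Int.squarefree_natCast.2 sn) (Int.natCast_dvd_natCast.2 d) t
    by_cases m : l ∈ S
    · have i := b.unr l _ o (b.nS l m hl) _ t.1
      have := (hs l m).lem o l2 t (pl.σ_dec hl) (by rw [i, z.2, zero_mul])
      rw [i, z.2, n1, (b_two _ (b.fro l m _ _ o (pl.fb l hl))).2.2] at this
      simp at this
    · have := un l _ o ⟨m, fun a => c (a ▸ dvd_mul_left _ _)⟩ _ t.1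
      rw [e, n1] at this
      exact one_ne_zero this
  by_cases t : 2 ∣ n
  · obtain ⟨n, rfl⟩ := t
    have o := pl.ov 2 Nat.prime_two
    have s := pl.fb 2 Nat.prime_two
    let H : Subgroup GQ := ⟨⟨⟨{g | b1 (f g) = 0 ∧ b2 (f g) = nu 5 g}, fun {g h} a c => by
      simp only [Set.mem_setOf_eq] at a c ⊢
      simp only [b.add, b1_add, b2_add, nu_mul, a.1, a.2, c.1, c.2, add_zero, mul_zero, and_self]⟩,
      by simp only [Set.mem_setOf_eq, v 1 (one_mem _), z, true_and]
         exact (mem_kn.1 (one_mem _)).symm⟩, fun {g} a => by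
      have := b.add g g⁻¹
      rw [mul_inv_cancel, v 1 (one_mem _), eq_comm, add_eq_zero_iff_eq_neg'] at this
      simp only [Set.mem_setOf_eq, this, b_neg _ a.1, nu_inv, a.2, and_self]⟩
    have le : dec (pl.P 2) ≤ H := lt.dec_le o s (Subgroup.isOpen_mono (H₁ := V ⊓ kn 5)
      (fun u a => ⟨by rw [v u a.1, z.1], by rw [v u a.1, z.2, mem_kn.1 a.2]⟩)
      (hV.inter (kn_open 5))) ⟨ev 2 h2 _ (pl.σ_dec o.1), (b_two _ (b.fro 2 h2 _ _ o s)).2.2.trans
        ((z2 _).resolve_left fun a => absurd ((fb_two o (by decide) s).1 a) (by decide)).symm⟩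
      fun i hi => ⟨ev 2 h2 _ (inert_dec hi), by
        rw [b.unr 2 _ o (b.nS 2 h2 o.1) i hi, z.2, in_two o (by decide) hi]⟩
    have n2 : ∀ g ∈ dec (pl.P 2), nu (2 * n : ℕ) g = nu 2 g := fun g a => by
      rw [Nat.cast_mul, nu_mul_left (by decide) (Int.natCast_ne_zero.2 (right_ne_zero_of_mul
        sn.ne_zero))]
      rcases (Nat.dvd_prime hq).1 (Nat.dvd_of_mul_dvd_mul_left two_pos d) with rfl | rfl
      · rw [Nat.cast_one, nu_one_left, add_zero]; rfl
      · rw [← b.par, ev 2 h2 g a, add_zero]; rfl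
    have oc := GW.Pl.core_open hU
    refine (h25 pl ⟨fun g => X g 2 (), ⟨U.normalCore, ⟨inferInstance, oc, ⟨idx_ne oc⟩,
      Set.empty_subset _⟩, fun g _ j _ m => by
        simp only [co, op j (U.normalCore_le m), Matrix.mul_zero, add_zero]⟩,
      fun g a j c => ?_⟩).elim
    have := (hs 2 h2).a3 g a j c
    rw [(le a).2, n2 j c] at this
    show nu 5 g * nu 2 j = X j 2 () - X (g * j) 2 () + X g 2 ()
    rw [this]
    linear_combination nu 5 g * nu 2 j * CharTwo.two_eq_zero (R := F)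
  · rw [e]
    exact ((Nat.dvd_prime hq).1 (((Nat.Prime.coprime_iff_not_dvd Nat.prime_two).2
      t).symm.dvd_of_dvd_mul_left d)).imp (fun a => by rw [a]) fun a => by rw [a]

section
variable {R : Type} [CommRing R] {v x : Fin 2 → R}

theorem wp_mv (A : Matrix (Fin 2) (Fin 2) R) (v x : Fin 2 → R) :
    wp (A *ᵥ v) (A *ᵥ x) = A.det * wp v x := by
  simp only [wp, mulVec, dotProduct, det_fin_two, Fin.sum_univ_two]
  ring

theorem wp_line {i : Fin 2} (h : v i = 1) (e : wp v x = 0) : x = x i • v := by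
  rw [wp] at e
  funext j
  fin_cases i <;> fin_cases j <;> simp at h ⊢
  · rw [h, mul_one]
  · linear_combination e - x 1 * h
  · linear_combination -e - x 0 * h
  · rw [h, mul_one]

theorem wp_act {A : Matrix (Fin 2) (Fin 2) R} (h : A *ᵥ v = v) (d : A.det = 1) (u : R)
    (y x : Fin 2 → R) : wp v (y + (u • A) *ᵥ x) = wp v y + u * wp v x := by
  have := wp_mv A v x
  rw [h, d, one_mul] at this
  rw [← this, smul_mulVec]
  simp only [wp, Pi.add_apply, Pi.smul_apply, smul_eq_mul]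
  ring

end

theorem ag_one (g : GQ) (y : Unit → Rb J) :
    (ag (fun _ => 1) J χ g *ᵥ y) () = mq J (1 + PowerSeries.X) ^ χ g * y () := by
  rw [ag, Matrix.map_one _ (map_zero _) (map_one _), smul_mulVec, one_mulVec]; rfl

/-- the two steps of the reducible module -/
theorem two_step (h : Rep r S) {v : W} {i : Fin 2} (vi : v i = 1) (hv : ∀ g, rb r g *ᵥ v = v)
    (f : Finite {y : GQ → Unit → Rb J | Zg (fun _ => 1) T k J χ y}) :
    Finite {x | Zg (rb r) T k J χ x} ∧ Nat.card {x | Zg (rb r) T k J χ x} ≤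
      Nat.card {y : GQ → Unit → Rb J | Zg (fun _ => 1) T k J χ y} *
        Nat.card {y : GQ → Unit → Rb J | Zg (fun _ => 1) T k J χ y} := by
  let φ : F →+* Rb J := (mq J).comp PowerSeries.C
  let w : Fin 2 → Rb J := φ ∘ v
  have wi : w i = 1 := (congrArg φ vi).trans (map_one φ)
  have a1 : ∀ g, (rb r g).map φ *ᵥ w = w := fun g => funext fun j => by
    rw [← RingHom.map_mulVec, hv]; rfl
  have a2 : ∀ g, ((rb r g).map φ).det = 1 := fun g =>
    (φ.map_det _).symm.trans ((congrArg φ (det_rb h g)).trans (map_one φ))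
  have ln : ∀ {x s : GQ → Fin 2 → Rb J}, ((fun g (_ : Unit) => wp w (x g)) = fun g _ => wp w (s g)) →
      ∀ g, (x - s) g = (x - s) g i • w := fun {x s} e g => wp_line wi (by
    have := congrFun (congrFun e g) ()
    simp only [wp, Pi.sub_apply] at this ⊢
    linear_combination this)
  have z : ∀ {x : GQ → Fin 2 → Rb J} {g}, x g = 0 → (fun _ : Unit => wp w (x g)) = 0 :=
    fun e => funext fun _ => by rw [e]; simp [wp]
  refine cnt_le (fun x g _ => wp w (x g)) (fun x g _ => x g i) (fun x m => ⟨fun g j =>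
    funext fun _ => ?_, m.opn.imp fun U e => ⟨e.1, fun u a => z (e.2 u a)⟩, fun g a => z (m.un g a),
    z m.inf⟩) (fun x m s n e => ?_) (fun x _ y _ s _ b c d => sub_left_injective (b := s)
      (funext fun g => ?_)) f f
  · rw [m.co, Pi.add_apply, ag_one]
    exact wp_act (a1 g) (a2 g) _ _ _
  · have m := Zg.sub m n
    have e := ln e
    generalize x - s = x at m e
    have z : ∀ {g}, x g = 0 → (fun _ : Unit => x g i) = 0 := fun e => funext fun _ => congrFun e i
    refine ⟨fun g j => funext fun _ => ?_, m.opn.imp fun U e => ⟨e.1, fun u a => z (e.2 u a)⟩,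
      fun g a => z (m.un g a), z m.inf⟩
    rw [m.co, Pi.add_apply, Pi.add_apply, ag_one, e j, ag, smul_mulVec, mulVec_smul, a1]
    rfl
  · exact (ln b g).trans ((congrArg (· • w) (congrFun (congrFun d g) ())).trans (ln c g).symm)

theorem red (h : Rep r S) (i : ¬ IrB r) (pr : ∀ p ∈ S, p.Prime) (pl : Pl) (hk : IsConj k) {u : GQ}
    (big : Big r u) : Out r S pl k := by
  simp only [IrB, not_forall, not_exists, not_not] at i
  obtain ⟨v, v0, hv⟩ := i
  obtain ⟨i, vi⟩ := Function.ne_iff.1 v0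
  replace vi := (z2 _).resolve_left vi
  obtain ⟨m, hm⟩ := only h pr pl big
  obtain ⟨C, hC⟩ := base h pl
  refine ⟨max m 1, 8 * (C + 2), fun n F hn => ?_⟩
  obtain ⟨n, rfl⟩ : ∃ a, n = a + 2 := ⟨n - 2, by omega⟩
  obtain ⟨q, a1, a2, a3, a4, a5, a6⟩ := hm n F
  obtain ⟨e, t⟩ := ex_tq (Q := ∅) (by simp) (by simpa using ⟨a1, a4, a3⟩) a5 (by simp)
  rw [show ∏ x ∈ insert q ∅, x = q by simp] at t
  refine ⟨q, e, t, by simp [a1.primeFactors], fun x a d =>
    (Nat.prime_dvd_prime_iff_eq a a1).1 d ▸ ⟨a2, a6.mono (le_max_left _ _)⟩, fun J => ?_⟩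
  rw [zq_eq, a1.primeFactors]
  have := fin_zt h (S ∪ {q})
  have inj : Function.Injective fun y : {y : GQ → Unit → ZMod 2 |
      (fun g => y g () • v) ∈ Zt r (S ∪ {q})} => (⟨_, y.2⟩ : Zt r (S ∪ {q})) := fun x y c =>
    Subtype.ext (funext fun g => funext fun _ => by
      simpa [vi] using congrFun (congrFun (congrArg Subtype.val c) g) i)
  refine (count (a := fun _ => 1) (T := S ∪ {q}) (k := k) (χ := fun g => (e g).val)
    (Y' := {fun g _ => nu (1 : ℕ) g, fun g _ => nu q g}) (v := 1) (Finite.of_injective _ inj)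
    (Set.toFinite _) (fun J _ x a => ?_) ((Nat.card_le_card_of_injective _ inj).trans (hC _))
    ((Set.ncard_insert_le _ _).trans (by simp)) J le_rfl).elim fun f y => ?_
  swap
  · refine (two_step h vi hv f).imp_right fun s => s.trans ((Nat.mul_le_mul y y).trans_eq ?_)
    rw [← pow_add, Finset.card_singleton]
    congr 1; omega
  obtain ⟨c1, c2⟩ := a.c0 J.succ_pos
  obtain ⟨U, o, c3⟩ := a.opn
  simp only [one_mulVec] at c1
  have un : ∀ l P, Ov l P → l ∉ S ∪ {q} → ∀ g, Inert P g → c0 _ x g = 0 :=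
    fun l P o n g i => c2 g (a.un g ⟨l, n, P, o, i⟩)
  refine ⟨⟨⟨lc_of_open o (one_mem U) fun g j m => by rw [c1, c2 j (c3 j m), add_zero],
    fun g j => by simp only [c1, mulVec_smul, hv, Pi.add_apply, add_smul]⟩,
    fun l P o n g i => by simp only [un l P o n g i, Pi.zero_apply, zero_smul]⟩, fun b => ?_⟩
  exact (sca (X := fun g => cm _ (x g)) (t.bq hn) a1 pr h.two pl hk (fun g j => by
    rw [a.cm (by omega), transpose_one, Matrix.mul_one]) o
    (fun u m => by rw [c3 u m, cm_zero (by omega)]) (fun l P o n g i =>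
      congrFun (un l P o (by simp [n.1, n.2]) g i) ()) (congrFun (c2 k a.inf) ())).imp
    (fun e => funext fun g => funext fun _ => congrFun e g)
    fun e => funext fun g => funext fun _ => congrFun e g

/-- **the export of the block** -/
theorem muq : MUQ := fun r S pl k h pr hk ⟨_, big⟩ => by
  obtain ⟨m, B, a⟩ : Out r S pl k :=
    (em (IrB r)).elim (fun i => irr h i pr pl hk big) fun i => red h i pr pl hk big
  exact ⟨m, B, fun n F hn => (a n F hn).imp fun c b => b.imp fun e ⟨b1, b2, b3, b4⟩ =>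
    ⟨b1, b2, b3, fun J _ => b4 J⟩⟩

end Vale.Agent.P014T.Mu
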