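import Vale.Agent.P004C.Mu.Lev
import Vale.Agent.P014T.Mu.St

/-!
# P014 T, block MU: the filtration by the powers of `T`
-/

set_option linter.all false

noncomputable section

namespace Vale.Agent.P014T.Mu

open Matrix PowerSeries
open Vale.Agent.P022 (GQ)
open Vale.Agent.P022K.G2 (In)
open Vale.Agent.P004C.Mu (Rb)
open Vale.Agent.P004C.Mu.Lv

theorem cnt_le {A B C : Type} [AddCommGroup A] {Z : Set A} {Y : Set B} {W : Set C} (f : A → B)
    (d : A → C) (fy : ∀ x ∈ Z, f x ∈ Y) (hd : ∀ x ∈ Z, ∀ s ∈ Z, f x = f s → d (x - s) ∈ W)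
    (inj : ∀ x ∈ Z, ∀ y ∈ Z, ∀ s ∈ Z, f x = f s → f y = f s → d (x - s) = d (y - s) → x = y)
    (hY : Finite Y) (hW : Finite W) : Finite Z ∧ Nat.card Z ≤ Nat.card Y * Nat.card W := by
  have : ∀ b, ∃ s, ∀ x ∈ Z, f x = b → s ∈ Z ∧ f s = b := fun b => by
    by_cases h : ∃ x ∈ Z, f x = b
    · exact h.imp fun s h _ _ _ => h
    · exact ⟨0, fun x a e => absurd ⟨x, a, e⟩ h⟩
  choose s hs using this
  have i : Function.Injective fun x : Z => ((⟨f x, fy x x.2⟩, ⟨d (x - s (f x)), hd x x.2 _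
      (hs _ x x.2 rfl).1 (hs _ x x.2 rfl).2.symm⟩) : Y × W) := fun x y e => by
    simp only [Prod.mk.injEq, Subtype.mk.injEq] at e
    obtain ⟨a, b⟩ := hs _ x x.2 rfl
    exact Subtype.ext (inj x x.2 y y.2 _ a b.symm (e.1.symm.trans b.symm) (by rw [e.2, e.1]))
  exact ⟨Finite.of_injective _ i, Nat.card_prod Y W ▸ Nat.card_le_card_of_injective _ i⟩

variable {ι : Type} [Fintype ι] {J : ℕ} {a : GQ → Matrix ι ι F} {χ : GQ → ℕ} {T : Finset ℕ}
  {k : GQ}

/-- the action on `V ⊗ 𝔽₂[T] / T ^ J` -/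
def ag (a : GQ → Matrix ι ι F) (J : ℕ) (χ : GQ → ℕ) (g : GQ) : Matrix ι ι (Rb J) :=
  mq J (1 + X) ^ χ g • (a g).map ((mq J).comp C : F →+* Rb J)

/-- the cocycles -/
structure Zg (a : GQ → Matrix ι ι F) (T : Finset ℕ) (k : GQ) (J : ℕ) (χ : GQ → ℕ)
    (x : GQ → ι → Rb J) : Prop where
  co : ∀ g h, x (g * h) = x g + ag a J χ g *ᵥ x h
  opn : ∃ U : Subgroup GQ, IsOpen (U : Set GQ) ∧ ∀ w ∈ U, x w = 0
  un : ∀ g ∈ In T, x g = 0
  inf : x k = 0

theorem Zg.sub {x y : GQ → ι → Rb J} (h : Zg a T k J χ x) (h' : Zg a T k J χ y) :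
    Zg a T k J χ (x - y) := by
  obtain ⟨U, o, u⟩ := h.opn
  obtain ⟨V, o', v⟩ := h'.opn
  refine ⟨fun g j => ?_, ⟨U ⊓ V, o.inter o', fun w m => ?_⟩, fun g m => ?_, ?_⟩
  · simp only [Pi.sub_apply, h.co, h'.co, mulVec_sub]; abel
  · rw [Pi.sub_apply, u w m.1, v w m.2, sub_self]
  · rw [Pi.sub_apply, h.un g m, h'.un g m, sub_self]
  · rw [Pi.sub_apply, h.inf, h'.inf, sub_self]

theorem ag_mv (g : GQ) (p : ι → PS) (i : ι) : (ag a J χ g *ᵥ fun j => mq J (p j)) i =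
    mq J ((1 + X) ^ χ g * ∑ j, C (a g i j) * p j) := by
  simp [ag, smul_mulVec, mulVec, dotProduct, Finset.mul_sum, mul_assoc]

/-- the coefficients -/
def co (J i : ℕ) (x : Rb J) : F := coeff i x.out

theorem co_mq {i : ℕ} (h : i < J) (p : PS) : co J i (mq J p) = coeff i p :=
  cf (m := 0) (by rw [pow_zero, one_mul]; exact Quotient.out_eq _) h

theorem ex_mq {κ : Type} (x : κ → Rb J) : ∃ p : κ → PS, x = fun i => mq J (p i) :=
  ⟨fun i => (x i).out, funext fun i => (Quotient.out_eq _).symm⟩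

theorem co_add {i : ℕ} (h : i < J) (x y : Rb J) : co J i (x + y) = co J i x + co J i y := by
  obtain ⟨p, rfl⟩ := Ideal.Quotient.mk_surjective x
  obtain ⟨q, rfl⟩ := Ideal.Quotient.mk_surjective y
  rw [← map_add, co_mq h, co_mq h, co_mq h, map_add]

theorem co_zero {i : ℕ} (h : i < J) : co J i 0 = 0 := by
  rw [← map_zero (mq J), co_mq h, map_zero]

/-- division by `T` -/
def dn (J : ℕ) (x : Rb (J + 1)) : Rb J := mq J (mk fun n => co (J + 1) (n + 1) x)

theorem mq_eq {p q : PS} : mq J p = mq J q ↔ ∀ i < J, coeff i p = coeff i q := by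
  rw [Ideal.Quotient.eq, Ideal.mem_span_singleton, X_pow_dvd_iff]
  simp only [map_sub, sub_eq_zero]

theorem dn_mq (p : PS) : dn J (mq (J + 1) (X * p)) = mq J p :=
  mq_eq.2 fun i h => by rw [coeff_mk, co_mq (by omega), coeff_succ_X_mul]

theorem ex_X {κ : Type} {x : κ → Rb (J + 1)} (h : ∀ i, co (J + 1) 0 (x i) = 0) :
    ∃ p : κ → PS, x = fun i => mq (J + 1) (X * p i) := by
  obtain ⟨p, rfl⟩ := ex_mq x
  choose q e using fun i => X_dvd_iff.2 ((coeff_zero_eq_constantCoeff_apply (p i)).symm.trans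
    ((co_mq J.succ_pos _).symm.trans (h i)))
  exact ⟨q, funext fun i => by rw [e]⟩

theorem mq_X {p q : PS} (h : mq J p = mq J q) : mq (J + 1) (X * p) = mq (J + 1) (X * q) :=
  mq_eq.2 fun i hi => by
    cases i with
    | zero => simp
    | succ i => rw [coeff_succ_X_mul, coeff_succ_X_mul, mq_eq.1 h i (by omega)]

/-- the residual class -/
def c0 (J : ℕ) (x : GQ → ι → Rb J) (g : GQ) (i : ι) : F := co J 0 (x g i)

theorem co_sub {x y : Rb (J + 1)} (h : co (J + 1) 0 x = co (J + 1) 0 y) :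
    co (J + 1) 0 (x - y) = 0 := by
  have := co_add J.succ_pos (x - y) y
  rwa [sub_add_cancel, h, right_eq_add] at this

theorem Zg.dn {x : GQ → ι → Rb (J + 1)} (h : Zg a T k (J + 1) χ x)
    (h0 : ∀ g i, Mu.co (J + 1) 0 (x g i) = 0) : Zg a T k J χ fun g i => Mu.dn J (x g i) := by
  have z : ∀ g, x g = 0 → (fun i => Mu.dn J (x g i)) = 0 := fun g e => funext fun i => by
    have := dn_mq (J := J) 0
    rw [mul_zero, map_zero, map_zero] at this
    rw [e]; exact this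
  refine ⟨fun g j => funext fun i => ?_, h.opn.imp fun U e => ⟨e.1, fun w m => z w (e.2 w m)⟩,
    fun g m => z g (h.un g m), z k h.inf⟩
  obtain ⟨p, hp⟩ := ex_X (h0 g)
  obtain ⟨q, hq⟩ := ex_X (h0 j)
  simp only [h.co, hp, hq, Pi.add_apply, dn_mq, ag_mv, ← map_add]
  rw [← dn_mq (p i + _)]
  simp only [Finset.mul_sum, mul_add, mul_left_comm X]

/-- one step -/
theorem cstep {Y : Set (GQ → ι → F)} (hY : Finite Y)
    (h : ∀ x, Zg a T k (J + 1) χ x → c0 (J + 1) x ∈ Y) (f : Finite {x | Zg a T k J χ x}) :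
    Finite {x | Zg a T k (J + 1) χ x} ∧
      Nat.card {x | Zg a T k (J + 1) χ x} ≤ Nat.card Y * Nat.card {x | Zg a T k J χ x} := by
  have e : ∀ {x s : GQ → ι → Rb (J + 1)}, c0 _ x = c0 _ s → ∀ g i, co (J + 1) 0 ((x - s) g i) = 0 :=
    fun e g i => co_sub (congrFun (congrFun e g) i)
  refine cnt_le (c0 _) (fun x g i => dn J (x g i)) h (fun x m s n b => (Zg.sub m n).dn (e b))
    (fun x _ y _ s _ b c d => sub_left_injective (b := s) (funext fun g => funext fun i => ?_)) hY f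
  obtain ⟨p, hp⟩ := ex_X (e b g)
  obtain ⟨q, hq⟩ := ex_X (e c g)
  have := congrFun (congrFun d g) i
  simp only [hp, hq, dn_mq] at this
  exact (congrFun hp i).trans ((mq_X this).trans (congrFun hq i).symm)

/-- **the count** -/
theorem count {Y Y' : Set (GQ → ι → F)} (hY : Finite Y) (hY' : Finite Y') {N u v : ℕ}
    (h : ∀ J < N, ∀ x, Zg a T k (J + 1) χ x → c0 (J + 1) x ∈ Y ∧ (4 ≤ J → c0 (J + 1) x ∈ Y'))
    (c : Nat.card Y ≤ 2 ^ u) (c' : Nat.card Y' ≤ 2 ^ v) (J : ℕ) (hJ : J ≤ N) :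
    Finite {x | Zg a T k J χ x} ∧ Nat.card {x | Zg a T k J χ x} ≤ 2 ^ (v * J + 4 * u) := by
  suffices Finite {x | Zg a T k J χ x} ∧
      Nat.card {x | Zg a T k J χ x} ≤ 2 ^ (v * J + min J 4 * u) from
    ⟨this.1, this.2.trans (Nat.pow_le_pow_right two_pos (Nat.add_le_add_left
      (Nat.mul_le_mul_right _ (min_le_right _ _)) _))⟩
  induction J with
  | zero =>
    have : Subsingleton (Rb 0) := Ideal.Quotient.subsingleton_iff.2 (by simp)
    exact ⟨inferInstance, (Finite.card_le_one_iff_subsingleton.2 inferInstance).trans Nat.one_le_two_pow⟩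
  | succ J ih =>
    obtain ⟨f, b⟩ := ih (by omega)
    by_cases e : 4 ≤ J
    · refine (cstep hY' (fun x m => (h J hJ x m).2 e) f).imp_right fun s =>
        s.trans ((Nat.mul_le_mul c' b).trans_eq ?_)
      rw [← pow_add, min_eq_right e, min_eq_right (by omega)]
      congr 1; ring
    · refine (cstep hY (fun x m => (h J hJ x m).1) f).imp_right fun s =>
        s.trans ((Nat.mul_le_mul c b).trans ?_)
      rw [← pow_add, min_eq_left (by omega), min_eq_left (by omega)]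
      exact Nat.pow_le_pow_right two_pos (by nlinarith)

/-! ### modulo `T ^ 5` -/

/-- multiplication by `(1 + T) ^ k` -/
def L5 (k : ZMod 8) : Matrix (Fin 5) (Fin 5) F :=
  of fun i j => if j ≤ i then (k.val.choose (i - j) : ℕ) else 0

theorem L5_add : ∀ a b, L5 (a + b) = L5 a * L5 b := by decide +kernel

theorem L5_zero : L5 0 = 1 := by decide +kernel

theorem tr5 (a : ℕ) (p : PS) :
    (fun i : Fin 5 => coeff i ((1 + X) ^ a * p)) = L5 a *ᵥ fun i : Fin 5 => coeff i p := by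
  induction a with
  | zero => rw [pow_zero, one_mul, Nat.cast_zero, L5_zero, one_mulVec]
  | succ a ih =>
    rw [pow_succ', mul_assoc, Nat.cast_succ, add_comm _ (1 : ZMod 8), L5_add, ← mulVec_mulVec, ← ih,
      show L5 1 = !![1, 0, 0, 0, 0; 1, 1, 0, 0, 0; 0, 1, 1, 0, 0; 0, 0, 1, 1, 0; 0, 0, 0, 1, 1] by
        decide +kernel]
    generalize (1 + X) ^ a * p = q
    have e0 : coeff 1 (X * q) = coeff 0 q := coeff_succ_X_mul 0 q
    have e1 : coeff 2 (X * q) = coeff 1 q := coeff_succ_X_mul 1 q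
    have e2 : coeff 3 (X * q) = coeff 2 q := coeff_succ_X_mul 2 q
    have e3 : coeff 4 (X * q) = coeff 3 q := coeff_succ_X_mul 3 q
    ext i
    fin_cases i <;>
      simp [add_mul, mulVec, dotProduct, Fin.sum_univ_five, add_comm, e0, e1, e2, e3]

/-- the first five coefficients -/
def cm (J : ℕ) (x : ι → Rb J) : Matrix (Fin 5) ι F := of fun i j => co J i (x j)

theorem cm_zero (h : 5 ≤ J) : cm J (0 : ι → Rb J) = 0 :=
  Matrix.ext fun i _ => co_zero (i.2.trans_le h)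

theorem Zg.cm {x : GQ → ι → Rb J} (h : Zg a T k J χ x) (hJ : 5 ≤ J) (g j : GQ) :
    Mu.cm J (x (g * j)) = Mu.cm J (x g) + L5 (χ g) * Mu.cm J (x j) * (a g)ᵀ := by
  ext i t
  have l : ∀ i : Fin 5, (i : ℕ) < J := fun i => i.2.trans_le hJ
  obtain ⟨q, hq⟩ := ex_mq (x j)
  simp only [Mu.cm, h.co, hq, of_apply, Matrix.add_apply, Pi.add_apply, co_add (l i), ag_mv,
    co_mq (l _), congrFun (tr5 _ _) i]
  simp only [mulVec, dotProduct, mul_apply, transpose_apply, map_sum, of_apply,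
    coeff_C_mul, Finset.mul_sum, Finset.sum_mul]
  rw [Finset.sum_comm]
  simp only [mul_comm (a g t _), mul_assoc]

theorem Zg.c0 {x : GQ → ι → Rb J} (h : Zg a T k J χ x) (hJ : 0 < J) :
    (∀ g j, c0 J x (g * j) = c0 J x g + a g *ᵥ c0 J x j) ∧ ∀ g, x g = 0 → c0 J x g = 0 := by
  refine ⟨fun g j => funext fun t => ?_, fun g e => funext fun t => ?_⟩
  · obtain ⟨q, hq⟩ := ex_mq (x j)
    simp only [Mu.c0, h.co, hq, Pi.add_apply, co_add hJ, ag_mv, co_mq hJ]
    simp [mulVec, dotProduct, Mu.c0, hq, co_mq hJ]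
  · rw [Mu.c0, e]; exact co_zero hJ

end Vale.Agent.P014T.Mu
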