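import Vale.Agent.P004C.Mu.Gwl
import Vale.Agent.P004C.Mu.Fin
import Vale.Agent.P004C.Mu.Rcp
import Vale.Agent.P004C.Mu.Kil

/-!
# P014 T, block MU: killing of the residual groups (the proofs of P004C/Mu, weaker hypotheses)
-/

set_option linter.all false

noncomputable section

namespace Vale.Agent.P014T.Mu

open NumberField Matrix
open Vale.Agent.P022 (Qb GQ IsConj)
open Vale.Agent.P022K
open Vale.Agent.P027M.S (Inert)
open Vale.Agent.P022D.W (dec)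
open Vale.Agent.P022E.GW (Ov)
open Vale.Agent.P004S
open Vale.Agent.P004C.Mu hiding FIN GWL RCP KIL fin gwl rcp kil
open Vale.Agent.P004C.Mu.Kl hiding eq1 sp step

structure Cq (d : ℕ) : Prop where
  sq : Squarefree d

/-- the standing hypotheses -/
structure Oq (D : Dt) : Prop where
  rep : Rep D.r D.S
  irr : IrB D.r
  pr : ∀ p ∈ D.S, p.Prime
  cj : IsConj D.k
  cg : Cq (D.d₁ * D.d₂)
  nS : ∀ {l : ℕ}, l.Prime → l ∣ D.d₁ * D.d₂ → l ∉ D.S
  bal : hz D.r D.k * ∏ l ∈ D.d₂.primeFactors, hz D.r (D.pl.σ l) =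
    4 * ∏ l ∈ D.d₁.primeFactors, hz D.r (D.pl.σ l)

def FIN : Prop := ∀ D : Dt, Oq D → ∀ u s d N Q ε, Finite (D.Sl u s d N Q ε)

def GWL : Prop := ∀ D : Dt, Oq D → ∀ Q ε, (∀ x ∈ Q, D.Gt x) →
  16 ≤ Nat.card (D.Sl False False 1 ∅ Q ε) ∧ ∀ q, D.Gt q → q ∉ Q →
    16 ≤ Nat.card (D.Sl False True D.d₂ {q} Q ε) ∧ 16 ≤ Nat.card (D.Sl True False D.d₁ {q} Q ε)

def RCP : Prop := ∀ D : Dt, Oq D → ∀ (u s u' s' : Prop) (d d' : ℕ) Q ε q, (∀ x ∈ Q, D.Gt x) →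
  D.Gt q → q ∉ Q → u ∨ u' → s ∨ s' → D.d₁ * D.d₂ ∣ d * d' →
  ∀ z ∈ D.Sl u s d {q} Q ε, ∀ y ∈ D.Sl u' s' d' {q} Q ε,
    wp (z (D.pl.σ q)) (y (D.pl.τ q)) + wp (z (D.pl.τ q)) (y (D.pl.σ q)) = 0

def KIL : Prop := ∀ D : Dt, Oq D → ∃ k : ℕ, ∀ G : ℕ → Prop, (∀ q, G q → D.Gt q) → D.Sp G →
  ∃ Q ε, Q.card ≤ k ∧ (∀ q ∈ Q, G q) ∧ D.Kl Q ε

variable {D : Dt} {u s u' s' : Prop} {d d' q : ℕ} {N Q : Finset ℕ} {ε : ℕ → ZMod 2} {z : GQ → W}

theorem fin : FIN := fun D h u s d N Q ε =>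
  ((fin_un h.rep (D.S ∪ (D.d₁ * D.d₂).primeFactors ∪ N ∪ Q)).subset fun z a =>
    ⟨a.zb, fun l P o m => a.un l P o (by
      simp only [Finset.mem_union, not_or, Nat.mem_primeFactors] at m
      exact ⟨m.1.1.1, fun k => m.1.1.2 ⟨o.1, k, h.cg.sq.ne_zero⟩, m.1.2, m.2⟩)⟩).to_subtype


open Gl in
theorem key (h : Oq D) {u s : Prop} {d d' a b : ℕ} (dd : d * d' = D.d₁ * D.d₂) {N Q : Finset ℕ}
    (ε : ℕ → ZMod 2) (hN : ∀ x ∈ N, D.Gt x) (hQ : ∀ x ∈ Q, D.Gt x) (dj : Disjoint N Q)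
    (ha : Ix (Zb D.r) (fun z => Ot D.r (D.pl.P 2) z ∧ (u → Cb D.r {g | Inert (D.pl.P 2) g} z))
      (h0 D.r (dec (D.pl.P 2)) * a)) (hb : Ix (Zb D.r) (fun z => s → Cb D.r {D.k} z) b) :
    4 * hz D.r D.k * (∏ l ∈ d'.primeFactors, hz D.r (D.pl.σ l)) * 4 ^ N.card ≤
      a * b * (∏ l ∈ d.primeFactors, hz D.r (D.pl.σ l)) * Nat.card (D.Sl u s d N Q ε) := by
  have hr := h.rep
  have sq := h.cg.sq
  have hG : ∀ x ∈ N ∪ Q, D.Gt x := fun x m => (Finset.mem_union.1 m).elim (hN x) (hQ x)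
  have pf : ∀ {l e : ℕ}, e ∣ D.d₁ * D.d₂ → l ∈ e.primeFactors → l.Prime ∧ l ∣ D.d₁ * D.d₂ :=
    fun a m => ⟨Nat.prime_of_mem_primeFactors m, (Nat.dvd_of_mem_primeFactors m).trans a⟩
  have d1 : d ∣ D.d₁ * D.d₂ := Dvd.intro _ dd
  have d2 : d' ∣ D.d₁ * D.d₂ := Dvd.intro_left _ dd
  obtain ⟨T, tt, pT, fin, cd⟩ := glob hr h.irr D.pl h.cj
    (T₀ := D.S ∪ ((D.d₁ * D.d₂).primeFactors ∪ (N ∪ Q))) fun l m => by
      simp only [Finset.mem_union (s := D.S), Finset.mem_union (t := N ∪ Q)] at m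
      exact m.elim (h.pr l) fun m => m.elim Nat.prime_of_mem_primeFactors fun m => (hG l m).pr
  simp only [Finset.union_subset_iff] at tt
  obtain ⟨t1, t2, t3, t4⟩ := tt
  have t5 : ∀ {l : ℕ}, l.Prime → l ∣ D.d₁ * D.d₂ → l ∈ T := fun a b =>
    t2 (Nat.mem_primeFactors.2 ⟨a, b, sq.ne_zero⟩)
  let R := insert 2 (d'.primeFactors ∪ (N ∪ Q))
  have hR : ∀ l, l ∉ R ↔ l ≠ 2 ∧ l ∉ d'.primeFactors ∧ l ∉ N ∪ Q := fun l => by
    simp only [R, Finset.mem_insert, Finset.mem_union (t := N ∪ Q), not_or]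
  have RT : R ⊆ T := Finset.insert_subset (t1 hr.two) (Finset.union_subset
    (fun l m => t5 (pf d2 m).1 (pf d2 m).2) (Finset.union_subset t3 t4))
  have eh : ∀ l, l.Prime → l ∉ D.S → h0 D.r (dec (D.pl.P l)) = hz D.r (D.pl.σ l) := fun l p m =>
    h0_eq hr (D.pl.ov l p) m (D.pl.fb l p)
  obtain ⟨B, b1, b2, b3⟩ := (((Ix.prod (T \ R) fun l m => ix_ur hr
    (D.pl.ov l (pT l (Finset.mem_sdiff.1 m).1)) ((hR l).1 (Finset.mem_sdiff.1 m).2).1).trans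
    (Ix.prod d.primeFactors fun l m => (ix_str hr (D.pl.ov l (pf d1 m).1)
      (h.nS (pf d1 m).1 (pf d1 m).2) (D.pl.fb l (pf d1 m).1)).mono (fun z a => ⟨a.1, a.2 l
        (Finset.mem_sdiff.2 ⟨t5 (pf d1 m).1 (pf d1 m).2, (hR l).2
          ⟨hr.ne_two (h.nS (pf d1 m).1 (pf d1 m).2), fun j => (pf d1 m).1.not_isUnit (sq l
            (dd ▸ mul_dvd_mul (Nat.dvd_of_mem_primeFactors m) (Nat.dvd_of_mem_primeFactors j))),
          fun j => (hG l j).nd (pf d1 m).2⟩⟩)⟩) fun _ _ a => a)).and (ha.and (hb.and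
    (Ix.prod Q fun q m => ix_tw (hQ q m).one (D.pl.τ q) (ε q))))) (Zt D.r T) fin fun z m => m.1
  have s1 : B ≤ D.Sl u s d N Q ε := fun z m => by
    obtain ⟨⟨c1, c2⟩, c3, c4, c5⟩ := b2 z m
    exact ⟨(b1 m).1, fun l P o ⟨a1, a2, a3, a4⟩ g i => if j : l ∈ T then un_of hr (D.pl.ov l o.1)
      a1 (b1 m).1 (c1 l (Finset.mem_sdiff.2 ⟨j, (hR l).2 ⟨hr.ne_two a1, fun k => a2 (pf d2 k).2,
        by simp [a3, a4]⟩⟩)) o i else (b1 m).2 l P o j g i,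
      fun p a e => c1 p (Finset.mem_sdiff.2 ⟨t1 a, (hR p).2 ⟨e,
        fun k => h.nS (pf d2 k).1 (pf d2 k).2 a, fun k => (hG p k).nS a⟩⟩), c3.1, c3.2, c4,
      fun l p a => c2 l (Nat.mem_primeFactors.2 ⟨p, a, ne_zero_of_dvd_ne_zero sq.ne_zero d1⟩), c5⟩
  have s2 : D.Sl u s d N Q ε ≤ Zt D.r T := fun z m => ⟨m.zb, fun l P o j => m.un l P o
    ⟨fun a => j (t1 a), fun a => j (t5 o.1 a), fun a => j (t3 a), fun a => j (t4 a)⟩⟩
  have := Finite.of_injective _ (AddSubgroup.inclusion_injective s2)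
  have e := (cd.trans b3).trans (Nat.mul_le_mul_left _ (AddSubgroup.card_le_of_le s1))
  rw [← Finset.prod_sdiff RT, Finset.prod_insert (by
      simp only [Finset.mem_union (t := N ∪ Q), not_or]
      exact ⟨fun j => h.nS (pf d2 j).1 (pf d2 j).2 hr.two, fun j => (hG 2 j).nS hr.two⟩),
    Finset.prod_union (Finset.disjoint_left.2 fun l a j => (hG l j).nd (pf d2 a).2),
    Finset.prod_union dj,
    Finset.prod_congr rfl fun l a => eh l (pf d2 a).1 (h.nS (pf d2 a).1 (pf d2 a).2),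
    Finset.prod_congr rfl fun l a => (eh l (hN l a).pr (hN l a).nS).trans (hz_one (hN l a).one),
    Finset.prod_congr rfl fun l a => eh l (hQ l a).pr (hQ l a).nS, Finset.prod_const] at e
  refine Nat.le_of_mul_le_mul_left (c := (∏ l ∈ T \ R, h0 D.r (dec (D.pl.P l))) *
    (h0 D.r (dec (D.pl.P 2)) * ∏ l ∈ Q, hz D.r (D.pl.σ l))) (le_of_eq_of_le (by ring)
      (e.trans_eq (by ring))) (mul_pos (Finset.prod_pos fun _ _ => h0_pos _ _)
        (mul_pos (h0_pos _ _) (Finset.prod_pos fun _ _ => hz_pos _ _)))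

open Gl in
theorem gwl : GWL := fun D h Q ε hQ => by
  obtain ⟨t1, t2⟩ := G2l.two D.r D.S _ h.rep (D.pl.ov 2 Nat.prime_two)
  obtain ⟨b, b1, b2⟩ := ix_inf h.rep h.cj
  have a1 : Ix (Zb D.r) (fun z => Ot D.r (D.pl.P 2) z ∧ (False → Cb D.r {g | Inert (D.pl.P 2) g} z))
      (h0 D.r (dec (D.pl.P 2)) * 1) :=
    (mul_one (h0 D.r _)).symm ▸ t1.mono (fun _ a => a) fun _ _ a => ⟨a, False.elim⟩
  have a2 : Ix (Zb D.r) (fun z => False → Cb D.r {D.k} z) 1 := Ix.triv fun _ _ => False.elim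
  have bal := h.bal
  have p1 : 0 < ∏ l ∈ D.d₁.primeFactors, hz D.r (D.pl.σ l) := Finset.prod_pos fun _ _ => hz_pos _ _
  have p2 : 0 < ∏ l ∈ D.d₂.primeFactors, hz D.r (D.pl.σ l) := Finset.prod_pos fun _ _ => hz_pos _ _
  refine ⟨?_, fun q g n => ?_⟩
  · have e := key h (one_mul _) ε (N := ∅) (by simp) hQ (by simp) a1 a2
    have := Finset.prod_le_prod_of_subset_of_one_le' (f := fun l => hz D.r (D.pl.σ l))
      (Nat.primeFactors_mono (dvd_mul_left D.d₂ D.d₁) h.cg.sq.ne_zero) fun _ _ _ => hz_pos _ _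
    simp only [Finset.card_empty, pow_zero, mul_one, Nat.primeFactors_one, Finset.prod_empty,
      one_mul] at e
    nlinarith [Nat.mul_le_mul_left (hz D.r D.k) this]
  have hN : ∀ x ∈ ({q} : Finset ℕ), D.Gt x := fun x m => Finset.mem_singleton.1 m ▸ g
  have e1 := key h (mul_comm _ _) ε hN hQ (Finset.disjoint_singleton_left.2 n) a1
    (b2.mono (fun _ a => a) fun _ _ a (_ : True) => a)
  have e2 := key h rfl ε hN hQ (Finset.disjoint_singleton_left.2 n)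
    (t2.mono (fun _ a => a) fun _ _ a => ⟨a.1, fun _ : True => a.2⟩) a2
  rw [Finset.card_singleton] at e1 e2
  generalize ∏ l ∈ D.d₁.primeFactors, hz D.r (D.pl.σ l) = x at *
  generalize ∏ l ∈ D.d₂.primeFactors, hz D.r (D.pl.σ l) = y at *
  have pk := hz_pos D.r D.k
  generalize hz D.r D.k = c at *
  generalize Nat.card (D.Sl False True D.d₂ {q} Q ε) = m at *
  refine ⟨Nat.le_of_mul_le_mul_left (c := c * c * y) ?_ (by positivity),
    Nat.le_of_mul_le_mul_left (c := 4 * x) ?_ (by positivity)⟩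
  · calc _ = 16 * c * (c * y) := by ring
      _ = 4 * (4 * c * x * 4 ^ 1) := by rw [bal]; ring
      _ ≤ _ := Nat.mul_le_mul_left _ e1
      _ = 4 * b * (y * m) := by ring
      _ ≤ c * c * (y * m) := Nat.mul_le_mul_right _ b1
      _ = _ := by ring
  · calc _ = 16 * (4 * x) := by ring
      _ = 4 * c * y * 4 ^ 1 := by rw [← bal]; ring
      _ ≤ _ := e2
      _ = _ := by ring


open Rq in
theorem rcp : RCP := by
  classical
  intro D h u s u' s' d d' Q ε q hQ hq nq hu hs hd z a y b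
  have gt : ∀ x ∈ insert q Q, D.Gt x := fun x m => (Finset.mem_insert.1 m).elim (· ▸ hq) (hQ x)
  have key := rcp0 h.rep D.pl (insert q Q) (fun x m => ⟨(gt x m).pr, (gt x m).nS, (gt x m).m4⟩)
    a.zb b.zb h.cj (hs.imp a.inf b.inf) fun l hl m => ?_
  · rwa [Finset.sum_insert nq, Finset.sum_eq_zero fun x m => by
      rw [a.tw x m, b.tw x m, wp_smul_left, wp_smul_right, CharTwo.add_self_eq_zero],
      add_zero] at key
  have o := D.pl.ov l hl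
  have cl := G2.dec_closed (D.pl.P l)
  by_cases m2 : l = 2
  · subst m2
    exact hu.elim (fun k => ot2 h.rep a.zb b.zb (a.two k) b.ot) fun k =>
      skew h.rep cl a.zb b.zb (ot2 h.rep b.zb a.zb (b.two k) a.ot)
  by_cases mS : l ∈ D.S
  · exact ur2 h.rep o a.zb b.zb (a.ur l mS m2) (b.ur l mS m2)
  by_cases md : l ∣ D.d₁ * D.d₂
  · exact (hl.dvd_mul.1 (md.trans hd)).elim (fun k => cb_l h.rep cl b.zb (a.str l hl k)) fun k =>
      cb_r h.rep cl a.zb b.zb (b.str l hl k)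
  rw [Finset.mem_insert, not_or] at m
  have n := And.intro mS (And.intro md (And.intro (Finset.notMem_singleton.2 m.1) m.2))
  exact ur0 h.rep o a.zb b.zb (a.un l _ o n) (b.un l _ o n)


theorem eq1 (o : Oq D) (g : D.Gt q) (hq : q ∉ Q) :
    D.Sl u s d ∅ Q ε = D.Sl u s d {q} Q ε ⊓ (ev (D.pl.τ q)).ker := by
  ext z
  refine ⟨fun h => ⟨⟨h.zb, fun l P a b => h.un l P a ⟨b.1, b.2.1, by simp, b.2.2.2⟩, h.ur, h.ot,
    h.two, h.inf, h.str, h.tw⟩, h.un q _ (D.pl.ov q g.pr) ⟨g.nS, g.nd, by simp, hq⟩ _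
      (D.pl.τ_inert g.pr fun e => by simpa [e] using g.m4)⟩,
    fun ⟨h, k⟩ => ⟨h.zb, fun l P a b x hx => ?_, h.ur, h.ot, h.two, h.inf, h.str, h.tw⟩⟩
  by_cases e : l = q
  · subst e
    exact P004S.lt.un_tau o.rep D.pl g.pr g.nS h.zb k a hx
  · exact h.un l P a ⟨b.1, b.2.1, by simpa using e, b.2.2.2⟩ x hx


theorem sp {G : ℕ → Prop} (o : Oq D) (h : D.Sp G) {x y : GQ → W} (hx : x ∈ D.Sl False False 1 ∅ Q ε)
    (hy : y ∈ D.Sl False False 1 ∅ Q ε) (x1 : ¬ Cb D.r Set.univ x) (y1 : ¬ Cb D.r Set.univ y)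
    (e : x = y ∨ ¬ Cb D.r Set.univ (x + y)) : ∃ q ∉ Q, G q ∧ x (D.pl.σ q) ≠ 0 ∧ y (D.pl.σ q) ≠ 0 ∧
      (¬ Cb D.r Set.univ (x + y) → x (D.pl.σ q) ≠ y (D.pl.σ q)) := by
  classical
  have k : ∀ z ∈ D.Sl False False 1 ∅ Q ε,
      Un (· ∉ D.S ∪ (D.d₁ * D.d₂).primeFactors ∪ Q) z := fun z hz l P a b => hz.un l P a (by
    simp only [Finset.mem_union, not_or, Nat.mem_primeFactors_of_ne_zero o.cg.sq.ne_zero] at b
    exact ⟨b.1.1, fun m => b.1.2 ⟨a.1, m⟩, by simp, b.2⟩)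
  by_cases c : Cb D.r Set.univ (x + y)
  · obtain ⟨q, a, b, f⟩ := h ![x, y, x, x] _ fun i => by
      fin_cases i
      exacts [⟨hx.zb, k x hx, x1⟩, ⟨hy.zb, k y hy, y1⟩, ⟨hx.zb, k x hx, x1⟩, ⟨hx.zb, k x hx, x1⟩]
    exact ⟨q, fun m => a (Finset.mem_union_right _ m), b, f 0, f 1, fun n => absurd c n⟩
  · obtain ⟨q, a, b, f⟩ := h ![x, y, x + y, x] _ fun i => by
      fin_cases i
      exacts [⟨hx.zb, k x hx, x1⟩, ⟨hy.zb, k y hy, y1⟩,
        ⟨(add_mem hx hy).zb, k _ (add_mem hx hy), c⟩, ⟨hx.zb, k x hx, x1⟩]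
    exact ⟨q, fun m => a (Finset.mem_union_right _ m), b, f 0, f 1, fun _ m => f 2 (by
      show x _ + y _ = 0
      rw [m, w3])⟩

theorem step (hF : FIN) (hG : GWL) (hR : RCP) (o : Oq D) {G : ℕ → Prop} (g : ∀ q, G q → D.Gt q)
    (h : D.Sp G) (hQ : ∀ q ∈ Q, G q) (n : ¬ D.Kl Q ε) :
    ∃ q ε', G q ∧ po D (insert q Q) ε' < po D Q ε := by
  classical
  have hQ' := fun q m => g q (hQ q m)
  have fi := hF D o
  have r1 : ∀ q ∉ Q, G q → ∀ y ∈ D.Sl True False D.d₁ ∅ Q ε, y (D.pl.σ q) ≠ 0 →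
      ∀ z ∈ D.Sl False True D.d₂ {q} Q ε, z (D.pl.τ q) = 0 ∨ z (D.pl.τ q) = y (D.pl.σ q) :=
    fun q a b y hy y1 z hz => by
    rw [eq1 o (g q b) a] at hy
    have := hR D o _ _ _ _ _ _ Q ε q hQ' (g q b) a (Or.inr trivial) (Or.inl trivial)
      (mul_comm D.d₁ D.d₂ ▸ dvd_rfl) z hz y hy.1
    rw [show y _ = 0 from hy.2, P004S.wp_zero_right, zero_add] at this
    exact w1 _ _ y1 this
  have r2 : ∀ q ∉ Q, G q → ∀ x ∈ D.Sl False True D.d₂ ∅ Q ε, x (D.pl.σ q) ≠ 0 →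
      ∀ z ∈ D.Sl True False D.d₁ {q} Q ε, z (D.pl.τ q) = 0 ∨ z (D.pl.τ q) = x (D.pl.σ q) :=
    fun q a b y hy y1 z hz => by
    rw [eq1 o (g q b) a] at hy
    have := hR D o _ _ _ _ _ _ Q ε q hQ' (g q b) a (Or.inl trivial) (Or.inr trivial)
      dvd_rfl z hz y hy.1
    rw [show y _ = 0 from hy.2, P004S.wp_zero_right, zero_add] at this
    exact w1 _ _ y1 this
  obtain ⟨x, hx, x1, y, hy, y1⟩ : ∃ x ∈ D.Sl False True D.d₂ ∅ Q ε, ¬ Cb D.r Set.univ x ∧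
      ∃ y ∈ D.Sl True False D.d₁ ∅ Q ε, ¬ Cb D.r Set.univ y := by
    by_contra! c
    rcases not_and_or.1 n with n | n <;> push Not at n <;> obtain ⟨y, hy, y1⟩ := n <;>
      obtain ⟨q, a, b, f, -⟩ := sp o h (to_top hy) (to_top hy) y1 y1 (Or.inl rfl)
    · have e1 := le2 _ (ev (D.pl.τ q)) _ (r2 q a b y hy f)
      have e2 := card_le fun z hz => mem_cb (c y hy y1 z hz)
      rw [← eq1 o (g q b) a] at e1
      have := ((hG D o Q ε hQ').2 q (g q b) a).2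
      have := cb_card D
      omega
    · have e1 := le2 _ (ev (D.pl.τ q)) _ (r1 q a b y hy f)
      have e2 := card_le fun z hz => mem_cb (by_contra fun k => y1 (c z hz k y hy))
      rw [← eq1 o (g q b) a] at e1
      have := ((hG D o Q ε hQ').2 q (g q b) a).1
      have := cb_card D
      omega
  by_cases c : Cb D.r Set.univ (x + y)
  · have hx' : x ∈ D.Sl True False D.d₁ ∅ Q ε := by
      simpa using sub_mem (of_cb (add_mem (to_top hx) (to_top hy)) c) hy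
    obtain ⟨m, hm, m1⟩ : ∃ m ∈ D.Sl False False 1 ∅ Q ε, m ∉ cb D ∪ (cb D).image (· - x) := by
      by_contra! k
      have := (card_le k).trans ((Finset.card_union_le _ _).trans
        (add_le_add (cb_card D) (Finset.card_image_le.trans (cb_card D))))
      have := (hG D o Q ε hQ').1
      omega
    have m2 : ¬ Cb D.r Set.univ (x + m) := fun k => m1 (Finset.mem_union_right _
      (Finset.mem_image.2 ⟨_, mem_cb k, add_sub_cancel_left _ _⟩))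
    obtain ⟨q, a, b, f1, f2, f3⟩ := sp o h (to_top hx) hm x1
      (fun k => m1 (Finset.mem_union_left _ (mem_cb k))) (Or.inr m2)
    refine ⟨q, Function.update ε q (if true then 1 else 0), b, ?_⟩
    have k1 := r1 q a b x hx' f1
    have k2 := r2 q a b x hx f1
    rw [po, po, eq2 a, eq2 a, eq1 o (g q b) a, eq1 (d := D.d₁) o (g q b) a]
    rw [eq1 o (g q b) a] at hx hx' hm
    refine stepB (u := ev (D.pl.σ q)) hx.1 hx'.1 hx.2 f1 k1 k2 (fun z z1 z2 => ?_) _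
    have := hR D o _ _ _ _ _ _ Q ε q hQ' (g q b) a (Or.inl trivial) (Or.inl trivial)
      (dvd_mul_right _ 1) z (to_bot z1 z2) m hm.1
    rw [show m _ = 0 from hm.2, P004S.wp_zero_right, zero_add] at this
    exact (w1 _ _ f2 this).elim id fun e => (k1 z z1).elim id fun e' =>
      absurd (e'.symm.trans e) (f3 m2)
  · obtain ⟨q, a, b, f1, f2, f3⟩ := sp o h (to_top hx) (to_top hy) x1 y1 (Or.inr c)
    have k1 := r1 q a b y hy f2
    have k2 := r2 q a b x hx f1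
    rw [eq1 o (g q b) a] at hx hy
    obtain ⟨η, k⟩ := stepA (u := ev (D.pl.σ q)) w3 hx.1 hy.1 hx.2 hy.2 f1 f2 (f3 c) k1 k2
    refine ⟨q, Function.update ε q (if η then 1 else 0), b, ?_⟩
    rwa [po, po, eq2 a, eq2 a, eq1 o (g q b) a, eq1 (d := D.d₁) o (g q b) a]


theorem kil (hF : FIN) (hG : GWL) (hR : RCP) : KIL := by
  intro D o
  refine ⟨po D ∅ 0, fun G g h => ?_⟩
  suffices H : ∀ n Q ε, (∀ q ∈ Q, G q) → po D Q ε ≤ n →
      ∃ Q' ε', Q'.card ≤ Q.card + n ∧ (∀ q ∈ Q', G q) ∧ D.Kl Q' ε' by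
    simpa using H _ ∅ 0 (by simp) le_rfl
  intro n
  induction n with
  | zero =>
    intro Q ε hQ k
    refine ⟨Q, ε, le_rfl, hQ, by_contra fun c => ?_⟩
    obtain ⟨q, ε', -, b⟩ := step hF hG hR o g h hQ c
    omega
  | succ n ih =>
    intro Q ε hQ k
    by_cases c : D.Kl Q ε
    · exact ⟨Q, ε, by omega, hQ, c⟩
    obtain ⟨q, ε', a, b⟩ := step hF hG hR o g h hQ c
    obtain ⟨Q', ε'', k1, k2⟩ := ih (insert q Q) ε' (by simpa using ⟨a, hQ⟩) (by omega)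
    have := Finset.card_insert_le q Q
    exact ⟨Q', ε'', by omega, k2⟩

end Vale.Agent.P014T.Mu
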