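import Vale.Agent.P014T.Mu.Tw0
import Vale.Agent.P014T.Mu.Kil
import Vale.Agent.P004C.Mu.Chv
import Vale.Agent.P004C.Mu.Twv
import Vale.Agent.P004C.Mu.Sgn
import Vale.Agent.P004C.Mu.Kit

/-!
# P014 T, block MU: the primes of the tower
-/

set_option linter.all false

noncomputable section

namespace Vale.Agent.P014T.Mu

open NumberField Matrix
open scoped NumberTheorySymbols
open Vale.Agent.P022 (Qb GQ IsConj IsFrob)
open Vale.Agent.P027M.S (Inert)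
open Vale.Agent.P022E.GW (Ov Fb)
open Vale.Agent.P004S Vale.Agent.P004S.Wg
open Vale.Agent.P004R Vale.Agent.P004R.Cb Vale.Agent.P004R.Wr
open Vale.Agent.P004F.En (Big Gq ep_pow ep_conj)
open Vale.Agent.P004C.Mu Vale.Agent.P004C.Mu.Cv

variable {r : Rp} {S : Finset ℕ} {q n l : ℕ} {P : Ideal (𝓞 Qb)}

/-- the group which fixes the fourth roots of the elements of `S` -/
abbrev F4 (S : Finset ℕ) : Subgroup GQ := fxg (Nat.cast '' (S : Set ℕ)) 4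

theorem F4_open (S : Finset ℕ) : IsOpen (F4 S : Set GQ) :=
  fxg_open (S.finite_toSet.image _) (by norm_num)

theorem F4_normal (S : Finset ℕ) : (F4 S).Normal := ⟨fun u a g y ⟨p, m, e⟩ => by
  rw [AlgEquiv.mul_apply, AlgEquiv.mul_apply, a (g⁻¹ y) ⟨p, m, by
    rw [← map_pow, ← e, map_natCast]⟩, ← AlgEquiv.mul_apply, mul_inv_cancel, AlgEquiv.one_apply]⟩

theorem F4_pow (S : Finset ℕ) (g : GQ) : g ^ 4 ∈ F4 S := fun y ⟨p, _, e⟩ =>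
  Tv0.pow_fix 2 y (by rw [show y ^ 2 ^ 2 = p from e.symm, map_natCast])

theorem F4_in (hS : ∀ p ∈ S, p.Prime) (o : Ov l P) (h2 : l ≠ 2) (hl : l ∉ S) {g : GQ}
    (i : Inert P g) : g ∈ F4 S := fun y ⟨p, m, e⟩ => by
  have e' : y ^ 2 ^ 2 = p := e.symm
  refine ut_fix o h2 i 2 y ⟨1, p, P004R.Mu.one_nm o, ov_nat o fun d =>
    hl (((Nat.prime_dvd_prime_iff_eq o.1 (hS p m)).1 d) ▸ m), by simpa using e'⟩
    (by rw [e', map_natCast])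

theorem quart (o : Ov q P) (h : q % 4 = 1) {φ : GQ} (hφ : Fb q P φ) {p : ℕ} (hp : ¬ q ∣ p) {s : ℤ}
    (e : ∀ a : Qb, a ^ 4 = p → φ a = s * a) : (p : ZMod q) ^ (q / 4) = s := by
  obtain ⟨a, ha⟩ := IsAlgClosed.exists_pow_nat_eq (p : Qb) (n := 4) (by norm_num)
  let b : 𝓞 Qb := ⟨a, IsIntegral.of_pow (n := 4) (by norm_num) (ha ▸ isIntegral_natCast p)⟩
  have b4 : b ^ 4 = p := RingOfIntegers.ext (ha.trans (map_natCast (algebraMap (𝓞 Qb) Qb) p).symm)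
  have k := hφ b
  rw [show φ • b = s * b from RingOfIntegers.ext ((e a ha).trans
      (congrArg (· * a) (map_intCast (algebraMap (𝓞 Qb) Qb) s).symm)),
    show b ^ q = (b ^ 4) ^ (q / 4) * b by rw [← pow_mul, ← pow_succ]; congr 1; omega, b4,
    ← sub_mul] at k
  have := ov_dvd o (a := s - p ^ (q / 4)) (by
    push_cast
    exact (o.2.1.mem_or_mem k).resolve_right fun c => ov_nat o hp (b4 ▸ P.pow_mem_of_mem c 4
      (by norm_num)))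
  have := (ZMod.intCast_eq_intCast_iff_dvd_sub _ _ q).2 this
  exact_mod_cast this

/-- primes in a given class -/
theorem sup0 (h : Rep r S) (hS : ∀ p ∈ S, p.Prime) {s : ℤ} {g : GQ} (h1 : g ∈ En h (n + 3))
    (h2 : ∀ p ∈ S, ∀ a : Qb, a ^ 4 = p → g a = s * a) {O : Set GQ} (hO : IsOpen O) (hg : g ∈ O)
    (F : Finset ℕ) : ∃ q ψ, q.Prime ∧ q ∉ F ∧ q ∉ S ∧ IsFrob q ψ ∧ ψ ∈ O ∧ q % 2 ^ (n + 3) = 1 ∧
      q % 4 = 1 ∧ ∀ p ∈ S, (p : ZMod q) ^ (q / 4) = s := by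
  obtain ⟨q, ψ, hq, qT, fr, ⟨a1, a2⟩, a3⟩ := P022K.Cheb.exists_fr ((hO.inter (En_open h (n + 3))).inter
    ((F4_open S).preimage (f := fun x => g⁻¹ * x) (continuous_const.mul continuous_id))) (g := g)
    ⟨⟨hg, h1⟩, by simp [one_mem]⟩ (F ∪ S)
  rw [Finset.mem_union, not_or] at qT
  have cy : q % 2 ^ (n + 3) = 1 := by
    have c : ‖ep r ψ - 1‖ ≤ (1 / 2) ^ (n + 3) := a2
    rw [(h.frob q hq qT.2 ψ fr).1] at c
    have := (Padic.norm_int_le_pow_iff_dvd (p := 2) (q - 1) (n + 3)).1 (by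
      rw [_root_.zpow_neg, _root_.zpow_natCast]; simpa using c)
    rw [← Nat.mod_eq_of_lt (Nat.one_lt_two_pow (show n + 3 ≠ 0 by omega))]
    exact (Nat.modEq_iff_dvd.2 (by exact_mod_cast this)).symm
  have c4 : q % 4 = 1 := by
    rw [← Nat.mod_mod_of_dvd q (show 4 ∣ 2 ^ (n + 3) from ⟨2 ^ (n + 1), by ring⟩), cy]
  refine ⟨q, ψ, hq, qT.1, qT.2, fr, a1, cy, c4, fun p m => ?_⟩
  obtain ⟨Q, q1, q2, q3⟩ := fr
  refine quart ⟨hq, q1, q2⟩ c4 q3 (fun d => qT.2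
    (((Nat.prime_dvd_prime_iff_eq hq (hS p m)).1 d) ▸ m)) fun a e => ?_
  rw [← mul_inv_cancel_left g ψ, AlgEquiv.mul_apply, a3 a ⟨p, m, e.symm⟩, h2 p m a e]

/-- a commutator which changes the sign of the fourth roots -/
theorem ex_g0 (h : Rep r S) (hS : ∀ p ∈ S, p.Prime) : ∃ g : GQ, ep r g = 1 ∧ (∀ d, nu d g = 0) ∧
    ∀ p ∈ S, ∀ a : Qb, a ^ 4 = p → g a = (-1 : ℤ) * a := by
  obtain ⟨k, hk⟩ := P004R.Mu.ex_k
  obtain ⟨P, o⟩ := ex_ov Nat.prime_five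
  obtain ⟨-, φ, -, s, -⟩ := P004R.Mu.ex_st o
  have j1 := jac o (by norm_num) (d := -1) (by norm_num) s
  have j2 := jac o (by norm_num) (d := (2 : ℕ)) (by norm_num) s
  obtain ⟨t, ⟨t1, t2⟩, t3⟩ := ex_nu (S.erase 2) (fun x m => ⟨hS x (Finset.mem_of_mem_erase m),
    Finset.ne_of_mem_erase m⟩) (kn (-1) ⊓ kn (2 : ℕ)) (fun x => 1 - nu x φ) fun x m _ P o g i =>
      have n := Finset.ne_of_mem_erase m
      ⟨nu_inert o n (fun d => o.1.ne_one (Nat.dvd_one.1 (Int.natCast_dvd_natCast.1 (dvd_neg.1 d)))) i,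
        nu_inert o n (fun d => n ((Nat.prime_dvd_prime_iff_eq o.1 Nat.prime_two).1
          (Int.natCast_dvd_natCast.1 d))) i⟩
  have y1 : nu (-1) (φ * t) = 0 := by
    rw [nu_mul, mem_kn.1 t1, add_zero]
    exact sz_inj (j1.symm.trans (by norm_num [sz]))
  have y2 : ∀ p ∈ S, nu p (φ * t) = 1 := fun p m => by
    by_cases e : p = 2
    · rw [e, nu_mul, mem_kn.1 t2, add_zero]
      exact sz_neg.1 (j2.symm.trans (by norm_num))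
    · rw [nu_mul, t3 p (Finset.mem_erase.2 ⟨e, m⟩), add_sub_cancel]
  generalize φ * t = y at y1 y2
  refine ⟨(y * k)⁻¹ * (k * y), ?_, fun d => by
    rw [nu_mul, nu_inv, nu_mul, nu_mul, add_comm (nu d k), CharTwo.add_self_eq_zero], fun p m a e => ?_⟩
  · rw [ep_mul, ep_mul r k, mul_comm (ep r k), ← ep_mul, ← ep_mul, inv_mul_cancel, ep_one]
  have p0 : (p : ℤ) ≠ 0 := Int.natCast_ne_zero.2 (hS p m).ne_zero
  have a0 : a ≠ 0 := by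
    rintro rfl
    exact p0 (by exact_mod_cast (by simpa using e.symm : (p : Qb) = 0))
  have e1 := (nu_eq_one p0 (w := a ^ 2) (by push_cast; rw [← e]; ring)).1 (y2 p m)
  have e2 : (y a / a) ^ 2 = (-1 : ℤ) := by
    rw [div_pow, ← map_pow, e1, neg_div, div_self (pow_ne_zero 2 a0)]; simp
  have e3 := (nu_eq_one (by norm_num) e2).1 (nu_neg_conj (by norm_num) hk)
  have e4 : y (k a / a) = k a / a := by
    have : (k a / a) ^ 2 * (k a / a) ^ 2 = 1 := by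
      rw [← pow_add, div_pow, ← map_pow, e, map_natCast, div_self (by exact_mod_cast p0)]
    rcases mul_self_eq_one_iff.1 this with b | b
    · exact (nu_eq_zero (d := 1) (by simpa using b)).1 (nu_one_left y)
    · exact (nu_eq_zero (d := -1) (by simpa using b)).1 y1
  have e5 : (k * y) a = (y * k) (-a) := by
    rw [map_neg, AlgEquiv.mul_apply, AlgEquiv.mul_apply, ← div_mul_cancel₀ (y a) a0, map_mul, e3,
      ← div_mul_cancel₀ (k a) a0, map_mul, e4]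
    field_simp
  rw [AlgEquiv.mul_apply, e5, ← AlgEquiv.mul_apply, inv_mul_cancel]
  simp

theorem En_normal (h : Rep r S) (n : ℕ) : (En h n).Normal := ⟨fun u a g => by
  show ‖ep r (g * u * g⁻¹) - 1‖ ≤ _
  rw [ep_conj]; exact a⟩

theorem En_of (h : Rep r S) (n : ℕ) {g : GQ} (e : ep r g = 1) : g ∈ En h n := by
  show ‖ep r g - 1‖ ≤ _
  rw [e, sub_self, norm_zero]; positivity

theorem En_le (h : Rep r S) {g : GQ} (e : g ∈ En h (n + 3)) : ‖ep r g - 1‖ ≤ 1 / 4 :=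
  le_trans e (by
    rw [pow_add]; exact mul_le_of_le_one_left (by norm_num) (pow_le_one₀ (by norm_num)
      (by norm_num)) |>.trans (by norm_num))

theorem nu4 (d : ℤ) (g : GQ) : nu d (g ^ 4) = 0 := by
  rw [show g ^ 4 = (g ^ 2) ^ 2 by group, Tv0.nu_sq]

theorem ex_w (h : Rep r S) (i : IrB r) (n : ℕ) :
    ∃ ω ∈ En h n ⊓ F4 S, o3 (rb r ω) ∧ ∀ d, nu d ω = 0 := by
  obtain ⟨ω, a, o⟩ := Cv.ex_om h i 1 n
  refine ⟨ω ^ 4, ⟨pow_mem a.2 4, F4_pow S ω⟩, ?_, fun d => nu4 d ω⟩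
  rw [show ω ^ 4 = ω * ω * (ω * ω) by simp only [pow_succ, pow_zero, one_mul, mul_assoc], h.rb_mul, h.rb_mul]
  exact (d1 _ (d1 _ o).1).1

theorem gq_fb (h : Rep r S) (pl : Pl) (hq : q.Prime) (qS : q ∉ S) {ψ : GQ} (fr : IsFrob q ψ) {m : ℕ}
    (a : Gq r m ψ) : Gq r m (pl.σ q) := by
  obtain ⟨x, s, hs, e⟩ := fb_cj (pl.ov q hq) (pl.fb q hq) fr
  have b := a.conj x⁻¹
  rwa [show x⁻¹ * ψ * x⁻¹⁻¹ = s * pl.σ q by rw [e]; group, Gq, ep, mt_mul,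
    h.mt_inert (pl.ov q hq) qS hs, one_mul] at b

/-- totally split primes -/
structure Gs (D : Dt) (m n : ℕ) (F : Finset ℕ) (q : ℕ) : Prop extends D.Gt q where
  nF : q ∉ F
  cy : q % 2 ^ (n + 3) = 1
  qu : ∀ p ∈ D.S, (p : ZMod q) ^ (q / 4) = 1
  gq : Gq D.r m (D.pl.σ q)

theorem chv {D : Dt} (ok : Oq D) {k : GQ} (b : Big D.r k) : ∃ m, ∀ n F, D.Sp (Gs D m n F) := by
  classical
  have h := ok.rep
  obtain ⟨m, hm⟩ := b.gq h four_ne_zero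
  refine ⟨m, fun n F z F' hz => ?_⟩
  obtain ⟨ω, hω, o, -⟩ := ex_w h ok.irr (n + 3)
  have nU := Subgroup.normal_inf_normal _ _ (hH := En_normal h (n + 3)) (hK := F4_normal D.S)
  have nK := Subgroup.normal_inf_normal _ _ (hH := nU) (hK := h.Kn_normal 1)
  have k1 : ∀ g ∈ En h (n + 3) ⊓ F4 D.S ⊓ h.Kn 1, rb D.r g = 1 := fun g a => h.tr_one_iff.1 a.2
  obtain ⟨g, gK, hg⟩ := four h nK k1 o (fun i => (hz i).1) fun i => by_contra fun c =>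
    (hz i).2.2 (cob h nU hω o (hz i).1 fun g a e => by_contra fun n =>
      c ⟨g, ⟨a, h.tr_one_iff.2 e⟩, n⟩)
  obtain ⟨j, -, hj⟩ := hm g (En_le h gK.1.1)
  have kk : k ^ j ∈ h.Kn 1 := pow_mem (b.tr.mono (by norm_num)) j
  rw [mul_comm, pow_mul] at hj
  have e1 : ep D.r ((k ^ j) ^ 4) = 1 := by rw [ep_pow, ep_pow, b.ep, one_pow, one_pow]
  generalize k ^ j = u at hj kk e1
  obtain ⟨q, ψ, hq, qT, qS, fr, ⟨⟨a1, a2⟩, a3⟩, cy, c4, qu⟩ := sup0 h ok.pr (s := 1) (g := g * u ^ 4)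
    (mul_mem gK.1.1 (En_of h _ e1)) (fun p a y e => by
      rw [mul_mem gK.1.2 (F4_pow _ u) y ⟨p, a, e.symm⟩]; simp)
    (O := ((h.Kn 1 : Set GQ) ∩ (fun x => (g * u ^ 4)⁻¹ * x) ⁻¹' h.Kn (m + 1)) ∩ ⋂ i, z i ⁻¹' {0}ᶜ)
    (((h.Kn_open 1).inter ((h.Kn_open _).preimage (continuous_const.mul continuous_id))).inter
      (isOpen_iInter_of_finite fun i => (hz i).1.1 _))
    ⟨⟨mul_mem gK.2 (pow_mem kk 4), by simp [one_mem]⟩, Set.mem_iInter.2 fun i => by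
      show z i _ ≠ 0
      rw [(hz i).1.2, show u ^ 4 = u ^ 2 * u ^ 2 by group, (hz i).1.2,
        h.tr_one_iff.1 (pow_mem kk 2 : u ^ 2 ∈ h.Kn 1), one_mulVec, P004C.Mu.w2, mulVec_zero, add_zero]
      exact hg i⟩ (F ∪ F' ∪ (D.d₁ * D.d₂).primeFactors)
  simp only [Finset.mem_union, not_or] at qT
  have ov := D.pl.ov q hq
  obtain ⟨x, s, hs, e⟩ := fb_cj ov (D.pl.fb q hq) fr
  have b1 := h.tr_one_iff.1 ((h.Kn_normal 1).conj_mem ψ a1 x⁻¹)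
  rw [show x⁻¹ * ψ * x⁻¹⁻¹ = s * D.pl.σ q by rw [e]; group] at b1
  refine ⟨q, qT.1.2, ⟨⟨hq, qS, fun c => qT.2 (Nat.mem_primeFactors.2 ⟨hq, c, ok.cg.sq.ne_zero⟩), c4,
    by simpa [h.rb_mul, rb_in h ov qS hs] using b1⟩, qT.1.1, cy, by simpa using qu,
    gq_fb h _ hq qS fr (mul_inv_cancel_left _ ψ ▸ hj.mul h a2)⟩, fun i c => ?_⟩
  have := (hz i).1.conj h x b1
  rw [← e, (hz i).1.2, (hz i).2.1 q _ ov qT.1.2 s hs, c] at this
  exact Set.mem_iInter.1 a3 i (by simpa using this)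

/-- the last prime, irreducible case -/
theorem last (h : Rep r S) (hS : ∀ p ∈ S, p.Prime) (i : IrB r) (pl : Pl) {Q : Finset ℕ}
    (hQ : ∀ q ∈ Q, q.Prime ∧ q ∉ S) (ε : ℕ → ZMod 2) (n : ℕ) (F : Finset ℕ) :
    ∃ q₀, q₀.Prime ∧ q₀ ∉ F ∧ q₀ ∉ Q ∧ q₀ ∉ S ∧ q₀ % 2 ^ (n + 3) = 1 ∧
      (∀ p ∈ S, (p : ZMod q₀) ^ (q₀ / 4) = -1) ∧ (rb r (pl.σ q₀)).trace = 1 ∧
      ∀ q ∈ Q, nu q₀ (pl.σ q) = ε q := by
  obtain ⟨g, g1, g2, g3⟩ := ex_g0 h hS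
  obtain ⟨ω, w1, w2, w3⟩ := ex_w h i (n + 3)
  obtain ⟨Δ, -, -, hΔ⟩ := sgn r S h
  obtain ⟨t, ⟨t1, t2⟩, t3⟩ := ex_nu Q (fun x m => ⟨(hQ x m).1, h.ne_two (hQ x m).2⟩)
    (En h (n + 3) ⊓ F4 S ⊓ h.Kn 1) ε fun x m _ P o g i =>
      ⟨⟨En_of h _ (by rw [ep, h.mt_inert o (hQ x m).2 i, det_one]),
        F4_in hS o (h.ne_two (hQ x m).2) (hQ x m).2 i⟩, h.Kn_uns 1 x P o (hQ x m).2 g i⟩
  obtain ⟨u, u1, u2, u3⟩ : ∃ u ∈ En h (n + 3) ⊓ F4 S, (rb r (g * u)).trace = 1 ∧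
      ∀ q ∈ Q, nu q u = ε q := by
    rcases (hΔ g).1 (g2 Δ) with a | a
    · exact ⟨t * ω, mul_mem t1 w1, by
        rw [h.rb_mul, h.rb_mul, a, h.tr_one_iff.1 t2, one_mul, one_mul, Tv0.tr_o3 _ w2],
        fun q m => by rw [nu_mul, w3, add_zero, t3 q m]⟩
    · exact ⟨t, t1, by rw [h.rb_mul, h.tr_one_iff.1 t2, mul_one, a], t3⟩
  obtain ⟨q, ψ, hq, qT, qS, ⟨P, p1, p2, fr⟩, ⟨a1, a2⟩, cy, c4, qu⟩ := sup0 h hS (g := g * u)
    (mul_mem (En_of h _ g1) u1.1) (fun p a y e => by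
      rw [AlgEquiv.mul_apply, u1.2 y ⟨p, a, e.symm⟩, g3 p a y e])
    (O := {φ | (rb r φ).trace = 1} ∩ ⋂ x ∈ Q, {φ | nu x φ = ε x})
    ((h.rb_lc {M | M.trace = 1}).inter (isOpen_biInter_finset fun x _ => nu_lc x {ε x}))
    ⟨u2, by simpa [nu_mul, g2] using u3⟩ (F ∪ Q)
  simp only [Set.mem_iInter, Set.mem_ofPred_eq] at a2
  rw [Finset.mem_union, not_or] at qT
  refine ⟨q, hq, qT.1, qT.2, qS, cy, by simpa using qu,
    (Tv0.tr_fb h ⟨hq, p1, p2⟩ (pl.ov q hq) qS fr (pl.fb q hq)).trans a1, fun x m => sz_inj ?_⟩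
  obtain ⟨x1, x2⟩ := hQ x m
  have ne : x ≠ q := fun e => qT.2 (e ▸ m)
  rw [← a2 x m, ← jac (pl.ov x x1) (h.ne_two x2) (fun d => ne ((Nat.prime_dvd_prime_iff_eq x1 hq).1
    (by exact_mod_cast d))) (pl.fb x x1), ← jac ⟨hq, p1, p2⟩ (h.ne_two qS) (fun d => ne
    ((Nat.prime_dvd_prime_iff_eq hq x1).1 (by exact_mod_cast d)).symm) fr]
  exact jacobiSym.quadratic_reciprocity_one_mod_four c4 (x1.odd_of_ne_two (h.ne_two x2))

/-- one prime, any case -/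
theorem only (h : Rep r S) (hS : ∀ p ∈ S, p.Prime) (pl : Pl) {k : GQ} (b : Big r k) : ∃ m, ∀ n (F : Finset ℕ),
    ∃ q, q.Prime ∧ q ∉ F ∧ q ∉ S ∧ q % 2 ^ (n + 3) = 1 ∧ (∀ p ∈ S, (p : ZMod q) ^ (q / 4) = -1) ∧
      Gq r m (pl.σ q) := by
  obtain ⟨m, hm⟩ := b.gq h four_ne_zero
  obtain ⟨g, g1, -, g3⟩ := ex_g0 h hS
  obtain ⟨j, -, hj⟩ := hm g (En_le (n := 0) h (En_of h _ g1))
  rw [mul_comm, pow_mul] at hj
  refine ⟨m, fun n F => ?_⟩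
  obtain ⟨q, ψ, hq, qT, qS, fr, a, cy, -, qu⟩ := sup0 h hS (n := n) (g := g * (k ^ j) ^ 4)
    (En_of h _ (by rw [ep_mul, ep_pow, ep_pow, g1, b.ep]; simp)) (fun p a y e => by
      rw [AlgEquiv.mul_apply, F4_pow S _ y ⟨p, a, e.symm⟩, g3 p a y e])
    ((h.Kn_open (m + 1)).preimage (f := fun x => (g * (k ^ j) ^ 4)⁻¹ * x)
      (continuous_const.mul continuous_id)) (by simp [one_mem]) F
  exact ⟨q, hq, qT, qS, cy, by simpa using qu,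
    gq_fb h _ hq qS fr (mul_inv_cancel_left _ ψ ▸ hj.mul h a)⟩

end Vale.Agent.P014T.Mu
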