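import Vale.Agent.P014T.Mu.Lq
import Vale.Agent.P014T.Mu.Tw1
import Vale.Agent.P004C.Mu.Part
import Vale.Agent.P004C.Mu.Glue

/-!
# P014 T, block MU: the irreducible case
-/

set_option linter.all false

noncomputable section

namespace Vale.Agent.P014T.Mu

open NumberField Matrix
open Vale.Agent.P022 (Qb GQ IsConj)
open Vale.Agent.P027M.S (Inert)
open Vale.Agent.P022D.W (dec)
open Vale.Agent.P022E.GW (Ov Fb Gn)
open Vale.Agent.P004S Vale.Agent.P004S.Wg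
open Vale.Agent.P004F.En (Big Gq)
open Vale.Agent.P004C.Mu hiding FIN GWL RCP KIL fin gwl rcp kil chv
open Vale.Agent.P004C.Mu.Lv (F)
open Vale.Agent.P004C.Mu.Gl Vale.Agent.P004C.Mu.Pa

variable {r : Rp} {S T : Finset ℕ} {k : GQ} {J : ℕ} {χ : GQ → ℕ}

theorem zq_eq : Zq r T k J χ = {x | Zg (rb r) T k J χ x} :=
  Set.ext fun _ => ⟨fun ⟨a, b, c, d⟩ => ⟨a, b, c, d⟩, fun ⟨a, b, c, d⟩ => ⟨a, b, c, d⟩⟩

theorem dm_cj : ∀ X Y A : M2, X * Y = 1 → dm (X * A * Y) = dm A := by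
  simp only [dm, trace_fin_two]
  decide +kernel

theorem dm_k : ∀ A ω : M2, A * A = 1 → o3 ω → dm A + dm ω = 2 ∨ dm A + dm A = 2 := by
  simp only [dm, trace_fin_two]
  decide +kernel

theorem ex_l0 (h : Rep r S) (i : IrB r) (pl : Pl) (hk : IsConj k) :
    ∃ l, l.Prime ∧ l ∉ S ∧ hz r k * hz r (pl.σ l) = 4 := by
  obtain ⟨ω, o⟩ := ex_o3 h i
  obtain ⟨g, e⟩ : ∃ g, dm (rb r k) + dm (rb r g) = 2 :=
    (dm_k _ _ (by rw [← h.rb_mul, P004R.Mu.kk hk, rb_one]) o).elim (fun a => ⟨ω, a⟩) fun a => ⟨k, a⟩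
  obtain ⟨l, ψ, hl, lS, fr, a⟩ := P022K.Cheb.exists_fr (h.rb_lc {rb r g}) (g := g) rfl S
  obtain ⟨x, s, hs, rfl⟩ := P004R.Wr.fb_cj (pl.ov l hl) (pl.fb l hl) fr
  have b : rb r _ = rb r g := a
  rw [h.rb_mul, h.rb_mul, h.rb_mul, Gl.rb_in h (pl.ov l hl) lS hs, one_mul] at b
  exact ⟨l, hl, lS, by rw [hz_eq h, hz_eq h, ← pow_add, ← dm_cj _ _ (rb r (pl.σ l)) (rb_inv h x), b, e]; rfl⟩

theorem fin_zt (h : Rep r S) (T : Finset ℕ) : Finite (Zt r T) := (fin_un h T).to_subtype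

/-- a bounded number of primes -/
theorem base (h : Rep r S) (pl : Pl) : ∃ C, ∀ T : Finset ℕ,
    Nat.card (Zt r (S ∪ T)) ≤ 2 ^ (C + 2 * T.card) := by
  refine ⟨Nat.card (Zt r S), fun T => ?_⟩
  obtain ⟨B, b1, b2, b3⟩ := Ix.prod (Z := fun _ => True) T (fun l _ => Ix.of
    (Pi.evalAddMonoidHom _ (pl.τ l)) (fun _ => True) (fun _ _ => trivial) fun _ _ e => e)
    (Zt r (S ∪ T)) (fin_zt h _) fun _ _ => trivial
  have := fin_zt h S
  have le : B ≤ Zt r S := fun z m => ⟨(b1 m).1, fun l P o n g i => if a : l ∈ T then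
    lt.un_tau h pl o.1 n (b1 m).1 (b2 z m l a) o i else (b1 m).2 l P o (by simp [n, a]) g i⟩
  refine b3.trans ?_
  rw [Finset.prod_const, show Nat.card {v : W // True} = 2 ^ 2 by simp, ← pow_mul, pow_add,
    mul_comm]
  exact Nat.mul_le_mul_right _ ((AddSubgroup.card_le_of_le le).trans Nat.lt_two_pow_self.le)

theorem Zg.zt {x : GQ → Fin 2 → Rb J} (h : Zg (rb r) T k J χ x) (hJ : 0 < J) :
    Mu.c0 J x ∈ Zt r T ∧ Mu.c0 J x k = 0 := by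
  obtain ⟨a, b⟩ := h.c0 hJ
  obtain ⟨U, o, e⟩ := h.opn
  exact ⟨⟨⟨lc_of_open o (one_mem U) fun g j m => by rw [a, b j (e j m), mulVec_zero, add_zero], a⟩,
    fun l P o n g i => b g (h.un g ⟨l, n, P, o, i⟩)⟩, b k h.inf⟩

/-- the classes which lift -/
def Y0 (D : Dt) (Q : Finset ℕ) (ε : ℕ → F) : AddSubgroup (GQ → W) :=
  D.Sl False True 1 ∅ Q ε ⊓ Zt D.r (D.S ∪ Q) ⊓ (Pi.evalAddMonoidHom _ D.k).ker

theorem y0_le {D : Dt} {Q : Finset ℕ} {ε : ℕ → F} (h : Rep D.r D.S) (K : D.Kl Q ε)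
    (p : D.d₂.Prime) (n : D.d₂ ∉ D.S ∪ Q) (e : hz D.r D.k * hz D.r (D.pl.σ D.d₂) = 4) :
    Finite (Y0 D Q ε) ∧ Nat.card (Y0 D Q ε) ≤ 2 ^ 2 := by
  have := fin_zt h (D.S ∪ Q)
  have f : Finite (Y0 D Q ε) := Finite.of_injective _
    (AddSubgroup.inclusion_injective (inf_le_left.trans inf_le_right))
  have o := D.pl.ov _ p
  obtain ⟨B, b1, b2, b3⟩ := ix_str h o (fun a => n (Finset.mem_union_left _ a)) (D.pl.fb _ p)
    (Y0 D Q ε) f fun z m => ⟨m.1.1.zb, 0, fun g i => by rw [m.1.2.2 _ _ o n g i]; simp⟩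
  have : ∀ z : B, ∃ v : {v : W // rb D.r D.k *ᵥ v = v}, ∀ g, z.1 g = rb D.r g *ᵥ v.1 - v.1 :=
    fun z => by
      have a := (b1 z.2).1.1
      obtain ⟨v, hv⟩ := K.1 z ⟨a.zb, a.un, a.ur, a.ot, a.two, a.inf, fun l hl d =>
        (Nat.prime_dvd_prime_iff_eq hl p).1 d ▸ b2 z z.2, a.tw⟩
      exact ⟨⟨v, sub_eq_zero.1 ((hv _ trivial).symm.trans (b1 z.2).2)⟩, fun g => hv g trivial⟩
  choose v hv using this
  refine ⟨f, b3.trans ((Nat.mul_le_mul_left _ (Nat.card_le_card_of_injective v fun x y c =>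
    Subtype.ext (funext fun g => by rw [hv, hv, c]))).trans_eq ((mul_comm _ _).trans e))⟩

theorem Zg.y0 {D : Dt} {Q : Finset ℕ} {ε : ℕ → F} {c : ℕ} {x : GQ → Fin 2 → Rb J}
    (h : Zg (rb D.r) (D.S ∪ c.primeFactors : Finset ℕ) D.k J χ x) (hJ : 5 ≤ J) (ρ : Rep D.r D.S)
    (pr : ∀ p ∈ D.S, p.Prime) (b : Bq D.S c fun g => χ g)
    (sub : ∀ q ∈ Q, D.Gt q ∧ q ∣ c ∧ nu c (D.pl.σ q) = ε q)
    (oth : ∀ q ∈ c.primeFactors, q ∈ Q ∨ (rb D.r (D.pl.σ q)).trace = 1) :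
    Mu.c0 J x ∈ Y0 D Q ε := by
  have k : Cx D.r D.S c (fun g => χ g) fun g => Mu.cm J (x g) := ⟨ρ, b, h.cm hJ,
    h.opn.imp fun U e => ⟨e.1, fun u m => by rw [e.2 u m, cm_zero hJ]⟩⟩
  obtain ⟨⟨z, u⟩, a⟩ := h.zt (by omega)
  have un : Un (· ∉ D.S ∪ Q) (Mu.c0 J x) := fun l P o n g i => by
    replace n := not_or.1 (mt Finset.mem_union.2 n)
    by_cases d : l ∈ c.primeFactors
    · exact un_o3 ρ z D.pl o n.1 ((oth l d).resolve_left n.2) i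
    · exact u l P o (fun m => (Finset.mem_union.1 m).elim n.1 d) g i
  exact ⟨⟨⟨z, fun l P o n => un l P o (by simp [n.1, n.2.2.2]),
    fun p m n => k.ur (D.pl.ov p (pr p m)) m n (D.pl.fb p (pr p m)),
    k.ot (D.pl.ov 2 Nat.prime_two) (D.pl.fb 2 Nat.prime_two), False.elim,
    fun _ => ⟨0, fun g m => by rw [Set.mem_singleton_iff.1 m, a]; simp⟩,
    fun l p d => (p.not_dvd_one d).elim, fun q m => by
      obtain ⟨G, d, e⟩ := sub q m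
      exact e ▸ k.tw (D.pl.ov q G.pr) G.nS d (D.pl.fb q G.pr) G.one
        (D.pl.gn q G.pr (ρ.ne_two G.nS))⟩, z, un⟩, a⟩

/-- the conclusion of the export -/
def Out (r : Rp) (S : Finset ℕ) (pl : Pl) (k : GQ) : Prop :=
  ∃ m B : ℕ, ∀ (n : ℕ) (F : Finset ℕ), 3 ≤ n →
    ∃ (c : ℕ) (e : GQ → ZMod (2 ^ n)), Tq S n c e ∧ c.primeFactors.card ≤ m ∧
      (∀ q : ℕ, q.Prime → q ∣ c → q ∉ F ∧ Gq r m (pl.σ q)) ∧ ∀ J,
        Finite (Zq r (S ∪ c.primeFactors) k J fun g => (e g).val) ∧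
        Nat.card (Zq r (S ∪ c.primeFactors) k J fun g => (e g).val) ≤ 2 ^ (2 * J + B)

theorem irr (h : Rep r S) (i : IrB r) (pr : ∀ p ∈ S, p.Prime) (pl : Pl) (hk : IsConj k) {u : GQ}
    (big : Big r u) : Out r S pl k := by
  obtain ⟨l, l1, l2, l3⟩ := ex_l0 h i pl hk
  let D : Dt := ⟨r, S, pl, k, 1, l⟩
  have ok : Oq D := ⟨h, i, pr, hk, ⟨by simpa [D] using l1.prime.squarefree⟩, fun a d =>
    (Nat.prime_dvd_prime_iff_eq a l1).1 (by simpa [D] using d) ▸ l2, by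
      simpa [D, l1.primeFactors] using l3⟩
  obtain ⟨N, hN⟩ := kil fin gwl rcp D ok
  obtain ⟨m, hm⟩ := chv ok big
  obtain ⟨C, hC⟩ := base h pl
  refine ⟨max m (N + 1), 4 * (C + 2 * (N + 1)), fun n F hn => ?_⟩
  obtain ⟨n, rfl⟩ : ∃ a, n = a + 2 := ⟨n - 2, by omega⟩
  obtain ⟨Q, ε, q1, q2, K⟩ := hN _ (fun q a => a.toGt) (hm n F)
  obtain ⟨q, a1, a2, a3, a4, a5, a6, a7, a8⟩ := last h pr i pl (Q := Q)
    (fun q a => ⟨(q2 q a).pr, (q2 q a).nS⟩) (fun q => ε q + nu (∏ q ∈ Q, q : ℕ) (pl.σ q)) n F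
  have hq : ∀ x ∈ insert q Q, x.Prime ∧ x % 2 ^ (n + 3) = 1 ∧ x ∉ S := fun x a =>
    (Finset.mem_insert.1 a).elim (fun e => e ▸ ⟨a1, a5, a4⟩) fun a =>
      ⟨(q2 x a).pr, (q2 x a).cy, (q2 x a).nS⟩
  obtain ⟨e, t⟩ := ex_tq a3 hq a6 fun x a => (q2 x a).qu
  have pf := Nat.primeFactors_prod fun x a => (hq x a).1
  have cd : (insert q Q).card ≤ N + 1 := (Finset.card_insert_le _ _).trans (by omega)
  obtain ⟨f, y⟩ := y0_le (D := D) h K l1 (by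
    simpa [D, l2] using fun a => (q2 l a).nd (by simp [D])) l3
  refine ⟨_, e, t, pf.symm ▸ cd.trans (le_max_right _ _), fun x a d => ?_, fun J => ?_⟩
  · have := Nat.mem_primeFactors.2 ⟨a, d, t.sq.ne_zero⟩
    rw [pf, Finset.mem_insert] at this
    rcases this with rfl | b
    exacts [⟨a2, gq_odd h a7 _⟩, ⟨(q2 x b).nF, (q2 x b).gq.mono (le_max_left _ _)⟩]
  rw [zq_eq]
  refine count (fin_zt h _) f (fun J _ x a => ⟨(a.zt J.succ_pos).1, fun b => Zg.y0 (D := D) a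
    (by omega) h pr (t.bq hn) (fun x a => ⟨(q2 x a).toGt,
      Finset.dvd_prod_of_mem _ (Finset.mem_insert_of_mem a), ?_⟩) fun x a => ?_⟩)
    ((hC _).trans (Nat.pow_le_pow_right two_pos (by rw [pf]; omega))) y J le_rfl
  · rw [Finset.prod_insert a3, Nat.cast_mul, nu_mul_left (Int.natCast_ne_zero.2 a1.ne_zero)
      (Int.natCast_ne_zero.2 (Finset.prod_ne_zero_iff.2 fun y b => (q2 y b).pr.ne_zero))]
    exact (congrArg (· + _) (a8 x a)).trans (by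
      rw [add_assoc, CharTwo.add_self_eq_zero, add_zero])
  · rw [pf, Finset.mem_insert] at a
    exact a.symm.imp_right fun e : x = q => e ▸ a7

end Vale.Agent.P014T.Mu
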