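import Vale.Agent.P014T.Mu.Cnt
import Vale.Agent.P004R.Chb

/-!
# P014 T, block MU: the residual class of a cocycle modulo `T ^ 5`
-/

set_option linter.all false

noncomputable section

namespace Vale.Agent.P014T.Mu

open NumberField Matrix
open Vale.Agent.P022 (Qb GQ IsConj)
open Vale.Agent.P027M.S (Inert)
open Vale.Agent.P022D.W (dec conj_inP phi_mem)
open Vale.Agent.P022.H443 (inP)
open Vale.Agent.P022E.GW (Ov Fb Gn)
open Vale.Agent.P004S Vale.Agent.P004S.Wg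
open Vale.Agent.P004R.Mu
open Vale.Agent.P004C.Mu
open Vale.Agent.P004C.Mu.Lv (F)

def b1 (k : ZMod 8) : F := k.val

def b2 (k : ZMod 8) : F := (k.val.choose 2 : ℕ)

theorem b1_add : ∀ a b, b1 (a + b) = b1 a + b1 b := by decide

theorem b2_add : ∀ a b, b2 (a + b) = b2 a + b2 b + b1 a * b1 b := by decide

theorem L5_row : ∀ a, L5 a 0 = Pi.single 0 1 ∧ L5 a 1 = Pi.single 1 1 + b1 a • Pi.single 0 1 ∧
    L5 a 2 = Pi.single 2 1 + b1 a • Pi.single 1 1 + b2 a • Pi.single 0 1 ∧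
    L5 4 4 = Pi.single 4 1 + Pi.single 0 1 := by decide +kernel

theorem b_two : ∀ a : ZMod 8, a.val % 4 = 2 →
    ((6 : ℕ) : ZMod 8) * a = 4 ∧ b1 a = 0 ∧ b2 a = 1 := by decide

/-- the layer modulo eight -/
structure Bq (S : Finset ℕ) (c : ℕ) (f : GQ → ZMod 8) : Prop where
  add : ∀ g h, f (g * h) = f g + f h
  opn : ∃ U : Subgroup GQ, IsOpen (U : Set GQ) ∧ ∀ u ∈ U, f u = 0
  unr : ∀ l P, Ov l P → ¬ l ∣ c → ∀ g, Inert P g → f g = 0
  par : ∀ g, b1 (f g) = nu c g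
  sq : Squarefree c
  nS : ∀ l ∈ S, l.Prime → ¬ l ∣ c
  fro : ∀ p ∈ S, ∀ P φ, Ov p P → Fb p P φ → (f φ).val % 4 = 2

variable {S Q : Finset ℕ} {ε : ℕ → F} {c l n : ℕ} {f : GQ → ZMod 8} {g h σ : GQ} {r : Rp}
  {P : Ideal (𝓞 Qb)} {D : Dt}

theorem in_fx (o : Ov l P) (d : ¬ l ∣ c) (c0 : c ≠ 0) (i : Inert P g) : P004R.Fx {1} c g :=
  fun y e => by
    let ζ : 𝓞 Qb := ⟨y, IsIntegral.of_pow (Nat.pos_of_ne_zero c0) (e ▸ isIntegral_one)⟩
    have e : ζ ^ c = 1 := RingOfIntegers.ext e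
    exact congrArg Subtype.val (P022E.GW.Unr.root_inj o.2.1 (fun q =>
      d (Int.natCast_dvd_natCast.1 (ov_dvd o (by simpa using q))))
      (by rw [← smul_pow', e, smul_one]) e (i ζ))

theorem Tq.bq {e : GQ → ZMod (2 ^ n)} (t : Tq S n c e) (h : 3 ≤ n) :
    Bq S c fun g => (e g).val := by
  have d : 8 ∣ 2 ^ n := pow_dvd_pow 2 h
  have ef : ∀ g, ((e g).val : ZMod 8) = ZMod.castHom d (ZMod 8) (e g) := fun g => by simp
  refine ⟨fun g h => by rw [ef, ef, ef, t.add, map_add], ⟨_, P004R.Cb.fxg_open (Set.finite_singleton 1)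
    (Nat.pos_of_ne_zero t.sq.ne_zero), fun u m => by rw [ef, t.ker u m, map_zero]⟩,
    fun l P o d g i => by rw [ef, t.ker g (in_fx o d t.sq.ne_zero i), map_zero], fun g => ?_, t.sq,
    fun l m p d => (t.cy l p d).2 m, fun p m P φ o a => ?_⟩
  · rw [← t.par, b1, ZMod.val_natCast, ZMod.natCast_eq_natCast_iff']
    omega
  · have := t.fro p m P φ o a
    rw [ZMod.val_natCast]
    omega

theorem Bq.pow (b : Bq S c f) (g : GQ) (n : ℕ) : f (g ^ n) = n * f g := by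
  induction n with
  | zero => simpa using b.add 1 1
  | succ n ih => rw [pow_succ, b.add, ih]; push_cast; ring

abbrev Nn (ι : Type) : Type := Matrix (Fin 5) ι F

theorem row {ι : Type} (a : ZMod 8) (Y : Nn ι) : (L5 a * Y) 0 = Y 0 ∧
    (L5 a * Y) 1 = Y 1 + b1 a • Y 0 ∧ (L5 a * Y) 2 = Y 2 + b1 a • Y 1 + b2 a • Y 0 ∧
    (L5 4 * Y) 4 = Y 4 + Y 0 := by
  obtain ⟨e0, e1, e2, e4⟩ := L5_row a
  have e : ∀ a i, (L5 a * Y) i = L5 a i ᵥ* Y := fun _ _ => rfl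
  simp only [e, e0, e1, e2, e4, add_vecMul, smul_vecMul, single_one_vecMul]
  exact ⟨rfl, rfl, rfl, rfl⟩

/-- the action on the tensor product -/
def act (r : Rp) (f : GQ → ZMod 8) (g : GQ) (Y : Nn (Fin 2)) : Nn (Fin 2) :=
  L5 (f g) * Y * (rb r g)ᵀ

variable {X : GQ → Nn (Fin 2)} {Y : Nn (Fin 2)}

theorem act_row (i : Fin 5) : act r f g Y i = rb r g *ᵥ (L5 (f g) * Y) i :=
  vecMul_transpose _ _

theorem act0 : act r f g Y 0 = rb r g *ᵥ Y 0 := by rw [act_row, (row _ _).1]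

theorem act_zero : act r f g 0 = 0 := by rw [act, Matrix.mul_zero, Matrix.zero_mul]

theorem act_add (Y Z : Nn (Fin 2)) : act r f g (Y + Z) = act r f g Y + act r f g Z := by
  rw [act, Matrix.mul_add, Matrix.add_mul]; rfl

theorem act_triv (h0 : f g = 0) (h1 : rb r g = 1) (Y : Nn (Fin 2)) : act r f g Y = Y := by
  rw [act, h0, h1, L5_zero, transpose_one, Matrix.one_mul, Matrix.mul_one]

/-- a cocycle modulo `T ^ 5` -/
structure Cx (r : Rp) (S : Finset ℕ) (c : ℕ) (f : GQ → ZMod 8) (X : GQ → Nn (Fin 2)) : Prop where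
  rep : Rep r S
  b : Bq S c f
  co : ∀ g h, X (g * h) = X g + act r f g (X h)
  opn : ∃ U : Subgroup GQ, IsOpen (U : Set GQ) ∧ ∀ u ∈ U, X u = 0

theorem Cx.act_mul (k : Cx r S c f X) (g h : GQ) (Y : Nn (Fin 2)) :
    act r f (g * h) Y = act r f g (act r f h Y) := by
  simp only [act, k.b.add, L5_add, k.rep.rb_mul, transpose_mul, Matrix.mul_assoc]

theorem Cx.six (k : Cx r S c f X) (o : Ov l P) (hl : l ∈ S) (hσ : Fb l P σ) (Y : Nn (Fin 2)) :
    act r f (σ ^ 6) Y 4 = Y 4 + Y 0 := by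
  rw [act_row, k.b.pow, (b_two _ (k.b.fro l hl P σ o hσ)).1, (row 0 _).2.2.2, rb_six k.rep,
    one_mulVec]

theorem Cx.xm (k : Cx r S c f X) (g h : GQ) : X (g * h) 0 = X g 0 + rb r g *ᵥ X h 0 := by
  rw [k.co, ← act0 (f := f)]; rfl

theorem Cx.ym (k : Cx r S c f X) (g h : GQ) :
    X (g * h) 1 = X g 1 + rb r g *ᵥ (X h 1 + b1 (f g) • X h 0) := by
  rw [k.co, ← (row _ _).2.1, ← act_row]; rfl

theorem Cx.zb (k : Cx r S c f X) : Zb r fun g => X g 0 :=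
  let ⟨U, o, e⟩ := k.opn
  ⟨lc_of_open o (one_mem U) fun g j m => by rw [k.co, e j m, act_zero, add_zero], k.xm⟩

theorem un_o3 (k : Rep r S) {z : GQ → W} (hz : Zb r z) (pl : Pl) (o : Ov l P) (n1 : l ∉ S)
    (t : (rb r (pl.σ l)).trace = 1) (i : Inert P g) : z g = 0 := by
  have l2 := k.ne_two n1
  obtain ⟨U, hU, e⟩ := ex_open (s := {x | z x = 0}) ((hz.1.isOpen_fiber 0).mem_nhds hz.one)
  have o' := pl.ov l o.1
  have s := pl.τ_inert o.1 l2
  have := (fr_inv o' l2 (pl.fb l o.1) (U := ⊤) hU w2 (f := z)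
    (fun g m j _ => by rw [hz.2, rb_in k o' n1 m.2, one_mulVec]) (fun j m => e m) ⟨trivial, s⟩).2
  rw [hz.conj k _ (rb_in k o' n1 s)] at this
  exact lt.un_tau k pl o.1 n1 hz (mo _ _ ((mt1 _ (det_rb k _)).1 t) this) o i

theorem Cx.ur (k : Cx r S c f X) (o : Ov l P) (hl : l ∈ S) (l2 : l ≠ 2)
    (hσ : Fb l P σ) : Cb r {g | Inert P g} fun g => X g 0 := by
  have r := k.rep
  obtain ⟨U, hU, e⟩ := k.opn
  refine cob_of r (A := inP P) (fun g _ j _ => k.xm g j) fun i hi h1 => ?_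
  have tv : ∀ g ∈ r.Kn 1 ⊓ inP P, ∀ Y, act _ f g Y = Y := fun g m =>
    act_triv (k.b.unr l P o (k.b.nS l hl o.1) g m.2) (r.tr_one_iff.1 m.1)
  haveI := r.Kn_normal 1
  obtain ⟨m, e1⟩ := fr_inv o l2 hσ (U := r.Kn 1) hU (f := X)
    (fun Y => Matrix.ext fun _ _ => CharTwo.add_self_eq_zero _)
    (fun g m j _ => by rw [k.co, tv g m]) e ⟨r.tr_one_iff.2 h1, hi⟩
  have e2 := k.co (σ * i * σ⁻¹) σ
  rw [inv_mul_cancel_right, k.co, tv _ m, e1, add_comm, add_left_inj] at e2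
  have e3 : ∀ n, act _ f (σ ^ (n + 1)) (X i) = X i := fun n => by
    induction n with
    | zero => rw [zero_add, pow_one, e2]
    | succ n ih => rw [pow_succ, k.act_mul, e2, ih]
  have := k.six o hl hσ (X i)
  rw [e3 5] at this
  exact left_eq_add.1 this

theorem Cx.ot (k : Cx r S c f X) (o : Ov 2 P) (hσ : Fb 2 P σ) : Ot r P fun g => X g 0 := by
  intro y y1 y2 y3
  have ρ := k.rep
  have s := phi_mem o.1 o.2.1 hσ
  have y0 := y3 1 (inert_one P)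
  obtain ⟨t, t1, t2⟩ := isOpen_induced_iff.1 (y1.isOpen_fiber 0)
  obtain ⟨U, hU, e⟩ := ex_open (t1.mem_nhds (Set.ext_iff.1 t2 1 |>.2 y0))
  obtain ⟨V, hV, e'⟩ := k.b.opn
  let φ : Nn (Fin 2) → F := fun Y => wp (y σ⁻¹) (Y 4)
  let Φ : Nn (Fin 2) → F := fun Y => ∑ n ∈ Finset.range 6, φ (act r f (σ ^ n) Y)
  let H : GQ → Prop := fun g => g ∈ dec P ∧ ∀ Y,
    Φ Y + Φ (act r f g Y) = wp (y g) (rb r g *ᵥ Y 0)
  have t2' := CharTwo.two_eq_zero (R := F)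
  have h1 : ∀ g h, H g → H h → H (g * h) := fun g h a b => ⟨mul_mem a.1 b.1, fun Y => by
    have a2 := a.2 (act r f h Y)
    have b2 := b.2 Y
    rw [act0] at a2
    rw [k.act_mul, y2 g a.1 h b.1, wp_add_left, ρ.rb_mul, ← mulVec_mulVec, ← a2, ρ.wp_rb, ← b2]
    linear_combination -Φ (act r f h Y) * t2'⟩
  have h2 : H σ := ⟨s, fun Y => by
    have a1 : Φ (act r f σ Y) + φ (act r f (σ ^ 0) Y) = Φ Y + φ (act r f (σ ^ 6) Y) := by
      simp only [Φ, ← k.act_mul, ← pow_succ]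
      exact (Finset.sum_range_succ' (fun n => φ (act r f (σ ^ n) Y)) 6).symm.trans
        (Finset.sum_range_succ _ 6)
    have a2 := y2 σ s _ (inv_mem s)
    rw [mul_inv_cancel, y0, eq_comm, add_eq_zero_iff_eq_neg, wn] at a2
    have a3 : φ (act r f (σ ^ 6) Y) = φ Y + wp (y σ⁻¹) (Y 0) := by
      simp only [φ, k.six o ρ.two hσ, wp_add_right]
    rw [a3, pow_zero, act_triv (e' 1 (one_mem V)) (rb_one r)] at a1
    rw [a2, ρ.wp_rb]
    linear_combination a1 + Φ Y * t2'⟩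
  let J : GQ → Prop := fun j => j ∈ dec P ∧ (Inert P j ∨ j ∈ (U ⊓ V).normalCore)
  have j1 : ∀ j, J j → ∀ t ∈ dec P, J (t * j * t⁻¹) := fun j a t b =>
    ⟨mul_mem (mul_mem b a.1) (inv_mem b), a.2.imp (conj_inP b) fun m =>
      (U ⊓ V).normalCore_normal.conj_mem j m t⟩
  have j2 : ∀ j, J j → y j = 0 := fun j a => a.2.elim (y3 j) fun m =>
    (Set.ext_iff.1 t2 ⟨j, a.1⟩).1 (e ((U ⊓ V).normalCore_le m).1)
  have j3 : ∀ j, J j → ∀ Y, φ (act r f j Y) = φ Y := fun j a Y => by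
    have a1 := y2 j a.1 _ (inv_mem s)
    rw [show j * σ⁻¹ = σ⁻¹ * (σ * j * σ⁻¹) by group, y2 _ (inv_mem s) _ (j1 j a σ s).1,
      j2 _ (j1 j a σ s), j2 j a, mulVec_zero, add_zero, zero_add] at a1
    simp only [φ]
    rw [act_row, a.2.elim (k.b.unr 2 P o (k.b.nS 2 ρ.two o.1) j) fun m =>
      e' j ((U ⊓ V).normalCore_le m).2, L5_zero, Matrix.one_mul, ← ρ.wp_rb j (y σ⁻¹) (Y 4), ← a1]
  have h3 : ∀ j, J j → H j := fun j a => ⟨a.1, fun Y => by
    rw [j2 j a, wp_zero_left, CharTwo.add_eq_zero]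
    refine Finset.sum_congr rfl fun n _ => ?_
    rw [← k.act_mul, ← j3 _ (j1 j a _ (pow_mem s n)), ← k.act_mul, inv_mul_cancel_right]⟩
  have h4 : ∀ g ∈ dec P, H g := fun g hg => by
    obtain ⟨n, i, hi, m⟩ := (lt 2 P o).2 σ g hσ hg (U ⊓ V).normalCore
      (P022K.GW.Pl.core_open (hU.inter hV))
    have a : H (σ ^ n) := by
      clear m
      induction n with
      | zero => exact h3 _ ⟨pow_mem s 0, .inl (pow_zero σ ▸ inert_one P)⟩
      | succ n ih => exact pow_succ σ n ▸ h1 _ _ ih h2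
    rw [← mul_inv_cancel_left (σ ^ n * i) g]
    exact h1 _ _ (h1 _ _ a (h3 i ⟨inert_dec hi, .inl hi⟩)) (h3 _ ⟨mul_mem (inv_mem (mul_mem a.1
      (inert_dec hi))) hg, .inr m⟩)
  obtain ⟨U', hU', e2⟩ := k.opn
  have oc := P022K.GW.Pl.core_open hU'
  refine ⟨fun h => Φ (X h), ⟨U'.normalCore, ⟨inferInstance, oc, ⟨idx_ne oc⟩, Set.empty_subset _⟩,
    fun g _ j _ m => by
      simp only [k.co, e2 j (U'.normalCore_le m), act_zero, add_zero]⟩, fun g hg h _ => ?_⟩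
  have := (h4 g hg).2 (X h)
  show wp _ _ = Φ (X h) - Φ (X (g * h)) + Φ (X g)
  have ad : ∀ Y Z, Φ (Y + Z) = Φ Y + Φ Z := fun Y Z => by
    simp only [Φ, φ, act_add, show ∀ Y Z : Nn (Fin 2), (Y + Z) 4 = Y 4 + Z 4 from fun _ _ => rfl,
      wp_add_right, Finset.sum_add_distrib]
  rw [← this, k.co, ad]
  linear_combination Φ (act r f g (X h)) * t2'

theorem Cx.tw (k : Cx r S c f X) (o : Ov l P) (nS : l ∉ S) (d : l ∣ c) (hσ : Fb l P σ)
    (one : rb r σ = 1) {τ : GQ} (t : Gn l P τ) : X σ 0 = nu c σ • X τ 0 := by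
  have ρ := k.rep
  have q2 := ρ.ne_two nS
  have r1 : ∀ g ∈ dec P, rb r g = 1 := fun g m => ρ.tr_one_iff.1
    (lt.dec_le o hσ (ρ.Kn_open 1) (ρ.tr_one_iff.2 one) (ρ.Kn_uns 1 l _ o nS) m)
  have t1 : b1 (f τ) = 1 := (k.b.par τ).trans
    (nu_tau o q2 (Int.squarefree_natCast.2 k.b.sq) (Int.natCast_dvd_natCast.2 d) t)
  obtain ⟨U, hU, e1⟩ := k.opn
  obtain ⟨V, hV, e2⟩ := k.b.opn
  funext i
  have := Hs.lem (θ := fun g => b1 (f g)) (x := fun g => X g 0 i + X τ 0 i * b1 (f g))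
    (y := fun g => X g 1 i + X τ 0 i * b2 (f g))
    ⟨⟨U ⊓ V, hU.inter hV, fun j m => by
      rw [e1 j m.1, e2 j m.2, show b1 0 = 0 by decide, show b2 0 = 0 by decide]; simp⟩,
    fun g m h n => by rw [k.b.add, b1_add], fun g m h n => by
      rw [k.xm, r1 g m, one_mulVec, k.b.add, b1_add, Pi.add_apply]; ring,
    fun g m h n => by
      rw [k.ym, r1 g m, one_mulVec, k.b.add, b2_add]
      simp only [Pi.add_apply, Pi.smul_apply, smul_eq_mul]
      ring⟩ o q2 t (phi_mem o.1 o.2.1 hσ) (by rw [t1, mul_one, CharTwo.add_self_eq_zero, mul_zero])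
  rw [t1, mul_one, CharTwo.add_self_eq_zero, mul_zero, one_mul, k.b.par, eq_comm,
    CharTwo.add_eq_zero] at this
  rw [this, Pi.smul_apply, smul_eq_mul, mul_comm]

end Vale.Agent.P014T.Mu
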