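import Vale.Agent.P014T.Mu.Add

/-!
# P014 T, block MU: the export with a second tower
-/

set_option linter.all false

noncomputable section

namespace Vale.Agent.P014T.Mu

open NumberField Matrix
open Vale.Agent.P022 (Qb GQ IsConj)
open Vale.Agent.P022D.W (dec conj_inP)
open Vale.Agent.P022E.GW (Ov Fb)
open Vale.Agent.P004S Vale.Agent.P004S.Wg
open Vale.Agent.P004R.Mu
open Vale.Agent.P004F.En (Big Gq)

variable {r : Rp} {S : Finset ℕ} {k : GQ} {n c : ℕ} {e : GQ → ZMod (2 ^ n)}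

/-- the second tower: one prime, inert in the first tower, at which `r ≡ 1` modulo `2 ^ K` -/
theorem sec2 (h : Rep r S) (t : Tq S n c e) (hn : 2 ≤ n) (K : ℕ) (F : Finset ℕ) :
    ∃ (q : ℕ) (e' : GQ → ZMod (2 ^ n)), q.Prime ∧ q ∉ F ∧ q ∉ S ∧ ¬ q ∣ c ∧ Tq ∅ n q e' ∧
      (∀ P, Ov q P → ∀ g ∈ dec P, Tr r K g) ∧ ∀ P φ, Ov q P → Fb q P φ → e φ = 1 := by
  obtain ⟨q, ψ, a1, a2, a3, a4, a5, a6, ⟨w, a7, a8⟩, a9⟩ := sec h t (N := n + 1) (u := 1)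
    (by rw [ep_one, sub_self, norm_zero]; positivity) 1 K F
  obtain ⟨n, rfl⟩ := Nat.exists_eq_add_of_le' hn
  obtain ⟨e', t'⟩ := ex_tq (n := n) (S := ∅) (Q := ∅) (q₀ := q) (by simp) (by
    simpa using ⟨a1, Eq.trans a5 (Nat.mod_eq_of_lt (Nat.one_lt_two_pow (by omega)))⟩) (by simp) (by simp)
  rw [show ∏ x ∈ insert q ∅, x = q by simp] at t'
  refine ⟨q, e', a1, a2, a3, a4, t', fun P o g m => ?_, a9⟩
  obtain ⟨-, φ, -, f, -⟩ := ex_st o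
  obtain ⟨x, i, hi, b⟩ := P004R.Wr.fb_cj o f a6
  have u := h.Kn_uns K q P o a3
  have z : ψ ∈ h.Kn K := fun i j => by rw [a8, mt_one, one_mul]; exact a7 i j
  refine lt.dec_le o f (h.Kn_open K) ((mul_mem_cancel_left (u i hi)).1 ?_) u m
  simpa [b, mul_assoc] using (h.Kn_normal K).conj_mem _ z x⁻¹

/-- **the export with two towers** -/
theorem muq2 (h : Rep r S) (pr : ∀ p ∈ S, p.Prime) (pl : Pl) (hk : IsConj k) (big : ∃ u, Big r u) :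
    ∃ m B : ℕ, ∀ (n K : ℕ) (F : Finset ℕ), 3 ≤ n → ∃ (c q : ℕ) (e e' : GQ → ZMod (2 ^ n)),
      Tq S n c e ∧ Tq ∅ n q e' ∧ c.primeFactors.card ≤ m ∧
      (∀ l : ℕ, l.Prime → l ∣ c → l ∉ F ∧ Gq r m (pl.σ l)) ∧ q.Prime ∧ q ∉ F ∧ q ∉ S ∧ ¬ q ∣ c ∧
      (∀ P, Ov q P → ∀ g ∈ dec P, Tr r K g) ∧ (∀ P φ, Ov q P → Fb q P φ → e φ = 1) ∧ ∀ J ≤ 2 ^ n,
        Finite (Zq r (insert q (S ∪ c.primeFactors)) k J fun g => (e g).val) ∧
        Nat.card (Zq r (insert q (S ∪ c.primeFactors)) k J fun g => (e g).val) ≤ 2 ^ (2 * J + B) := by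
  obtain ⟨m, B, a⟩ := muq r S pl k h pr hk big
  refine ⟨m, B + 4, fun n K F hn => ?_⟩
  obtain ⟨c, e, t, a1, a2, a3⟩ := a n F hn
  obtain ⟨q, e', b1, b2, b3, b4, b5, b6, b7⟩ := sec2 h t (by omega) K F
  refine ⟨c, q, e, e', t, b5, a1, a2, b1, b2, b3, b4, b6, b7, fun J hJ => ?_⟩
  have o := pl.ov q b1
  have : Fact (1 < 2 ^ n) := ⟨Nat.one_lt_two_pow (by omega)⟩
  refine (zq_add h Finset.subset_union_left o (by simp [b3, b4]) (pl.fb q b1) (by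
    rw [b7 _ _ o (pl.fb q b1), ZMod.val_one]; exact odd_one) (fun P o g i => by
    rw [t.ine o b4 i, ZMod.val_zero]) (a3 J hJ).1).imp_right fun s => s.trans ?_
  rw [← add_assoc, pow_add, mul_comm]
  exact Nat.mul_le_mul_right _ (a3 J hJ).2

/-- the second tower, with a good Frobenius element -/
theorem sec3 (h : Rep r S) {u : GQ} (big : Big r u) : ∃ m, ∀ (n c : ℕ) (e : GQ → ZMod (2 ^ n)),
    Tq S n c e → 2 ≤ n → ∀ F : Finset ℕ, ∃ (q : ℕ) (e' : GQ → ZMod (2 ^ n)), q.Prime ∧ q ∉ F ∧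
      q ∉ S ∧ ¬ q ∣ c ∧ Tq ∅ n q e' ∧ (∀ P, Ov q P → ∀ g ∈ dec P, Tr r 3 g) ∧
      ∀ P φ, Ov q P → Fb q P φ → e φ = 1 ∧ Gq r m φ := by
  obtain ⟨m, hm⟩ := big.gq h one_ne_zero
  obtain ⟨i, -, gu⟩ := hm 1 (by rw [ep_one, sub_self, norm_zero]; positivity)
  have tu := (h.Kn 3).pow_mem big.tr (1 * i)
  have eu : ep r (u ^ (1 * i)) = 1 := by rw [P004F.En.ep_pow, big.ep, one_pow]
  rw [one_mul] at gu
  generalize u ^ _ = u at gu tu eu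
  refine ⟨m, fun n c e t hn F => ?_⟩
  obtain ⟨q, ψ, a1, a2, a3, a4, a5, a6, ⟨w, a7, a8⟩, a9⟩ := sec h t (N := n + 1) (u := u)
    (by rw [eu, sub_self, norm_zero]; positivity) 1 (m + 3) F
  obtain ⟨n, rfl⟩ := Nat.exists_eq_add_of_le' hn
  obtain ⟨e', t'⟩ := ex_tq (n := n) (S := ∅) (Q := ∅) (q₀ := q) (by simp) (by
    simpa using ⟨a1, Eq.trans a5 (Nat.mod_eq_of_lt (Nat.one_lt_two_pow (by omega)))⟩) (by simp) (by simp)
  rw [show ∏ x ∈ insert q ∅, x = q by simp] at t'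
  have mo : ∀ j ≤ m + 3, Tr r j w := fun j le a b =>
    (a7 a b).trans (pow_le_pow_of_le_one (by norm_num) (by norm_num) le)
  rw [← mt_mul] at a8
  have z : ψ ∈ h.Kn 3 := fun i j => a8 ▸ h.tr_mul tu (mo 3 (by omega)) i j
  refine ⟨q, e', a1, a2, a3, a4, t', fun P o g m => ?_, fun P φ o f => ⟨a9 P φ o f, ?_⟩⟩
  · obtain ⟨-, φ, -, f, -⟩ := ex_st o
    obtain ⟨x, i, hi, b⟩ := P004R.Wr.fb_cj o f a6
    have u := h.Kn_uns 3 q P o a3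
    refine lt.dec_le o f (h.Kn_open 3) ((mul_mem_cancel_left (u i hi)).1 ?_) u m
    simpa [b, mul_assoc] using (h.Kn_normal 3).conj_mem _ z x⁻¹
  obtain ⟨x, i, hi, b⟩ := P004R.Wr.fb_cj o f a6
  have := (gu.mul h (mo _ (by omega))).conj x⁻¹
  rwa [Gq, ep, mt_mul, mt_mul, ← a8, ← mt_mul, ← mt_mul, b, show x⁻¹ * (x * (i * φ) * x⁻¹) * x⁻¹⁻¹ =
    i * φ by group, mt_mul, h.mt_inert o a3 hi, one_mul] at this

/-- **the export with two good towers** -/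
theorem muq3 (h : Rep r S) (pr : ∀ p ∈ S, p.Prime) (pl : Pl) (hk : IsConj k) (big : ∃ u, Big r u) :
    ∃ m B : ℕ, ∀ (n : ℕ) (F : Finset ℕ), 3 ≤ n → ∃ (c q : ℕ) (e e' : GQ → ZMod (2 ^ n)),
      Tq S n c e ∧ Tq ∅ n q e' ∧ (c * q).primeFactors.card ≤ m ∧
      (∀ l ∈ (c * q).primeFactors, l ∉ F ∧ l ∉ S ∧ Gq r m (pl.σ l)) ∧ q.Prime ∧ ¬ q ∣ c ∧
      (∀ P, Ov q P → ∀ g ∈ dec P, Tr r 3 g) ∧ (∀ P φ, Ov q P → Fb q P φ → e φ = 1) ∧ ∀ J ≤ 2 ^ n,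
        Finite (Zq r (S ∪ (c * q).primeFactors) k J fun g => (e g).val) ∧
        Nat.card (Zq r (S ∪ (c * q).primeFactors) k J fun g => (e g).val) ≤ 2 ^ (2 * J + B) := by
  obtain ⟨m, B, a⟩ := muq r S pl k h pr hk big
  obtain ⟨m', a'⟩ := sec3 h big.choose_spec
  refine ⟨max (m + 1) m', B + 4, fun n F hn => ?_⟩
  obtain ⟨c, e, t, a1, a2, a3⟩ := a n F hn
  obtain ⟨q, e', b1, b2, b3, b4, b5, b6, b7⟩ := a' n c e t (by omega) F
  have o := pl.ov q b1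
  have f := b7 _ _ o (pl.fb q b1)
  have pf : (c * q).primeFactors = insert q c.primeFactors := by
    rw [Nat.primeFactors_mul t.sq.ne_zero b1.ne_zero, b1.primeFactors, Finset.union_comm]; rfl
  refine ⟨c, q, e, e', t, b5, ?_, fun l a => ?_, b1, b4, b6, fun P φ o f => (b7 P φ o f).1,
    fun J hJ => ?_⟩ <;> rw [pf] at *
  · exact (Finset.card_insert_le _ _).trans (by omega)
  · rcases Finset.mem_insert.1 a with rfl | a
    · exact ⟨b2, b3, f.2.mono (le_max_right _ _)⟩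
    · obtain ⟨p, d, -⟩ := Nat.mem_primeFactors.1 a
      exact ⟨(a2 l p d).1, (t.cy l p d).2, (a2 l p d).2.mono (by omega)⟩
  have : Fact (1 < 2 ^ n) := ⟨Nat.one_lt_two_pow (by omega)⟩
  rw [Finset.union_insert]
  refine (zq_add h Finset.subset_union_left o (by simp [b3, b4]) (pl.fb q b1) (by
    rw [f.1, ZMod.val_one]; exact odd_one) (fun P o g i => by
    rw [t.ine o b4 i, ZMod.val_zero]) (a3 J hJ).1).imp_right fun s => s.trans ?_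
  rw [← add_assoc, pow_add, mul_comm]
  exact Nat.mul_le_mul_right _ (a3 J hJ).2

end Vale.Agent.P014T.Mu
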