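import Vale.Agent.P014T.Mu.St
import Vale.Agent.P004R.Mu0
import Vale.Agent.P004R.Twr0
import Vale.Agent.P022K.G2.Tam

/-!
# P014 T, block MU: cyclotomic layers
-/

set_option linter.all false

noncomputable section

namespace Vale.Agent.P014T.Mu

open NumberField
open Vale.Agent.P022 (Qb GQ IsConj IsFrob)
open Vale.Agent.P027M.S (Inert)
open Vale.Agent.P022E.GW (Ov Fb)
open Vale.Agent.P022K.G2
open Vale.Agent.P004S
open Vale.Agent.P004R (Fx)
open Vale.Agent.P004R.Mu (ex_nu mod_four sq_dvd ex_pl ex_st kk ex_k)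

variable {q n l : ℕ} {P : Ideal (𝓞 Qb)}

/-- the discrete logarithm -/
theorem ex_log [Fact q.Prime] (h : q % 2 ^ (n + 3) = 1) : ∃ f : (ZMod q)ˣ → ZMod (2 ^ (n + 2)),
    (∀ x y, f (x * y) = f x + f y) ∧ (∃ x, f x = 1) ∧ (∀ x, x * x = 1 → f x = 0) ∧
    ∀ x : (ZMod q)ˣ, ((x : ZMod q) ^ (q / 4) = 1 → (f x).val % 4 = 0) ∧
      ((x : ZMod q) ^ (q / 4) = -1 → (f x).val % 4 = 2) := by
  have hq : q.Prime := Fact.out
  obtain ⟨γ, hγ⟩ := IsCyclic.exists_monoid_generator (α := (ZMod q)ˣ)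
  choose j hj using hγ
  obtain ⟨t, ht⟩ : ∃ t, q = 2 ^ (n + 3) * t + 1 := ⟨_, by rw [← h, Nat.div_add_mod]⟩
  have t0 : 0 < t := Nat.pos_of_ne_zero fun e => hq.ne_one (by simpa [e] using ht)
  have o : orderOf γ = 2 ^ (n + 3) * t := by
    rw [orderOf_eq_card_of_forall_mem_powers fun x => ⟨j x, hj x⟩, Nat.card_eq_fintype_card,
      ZMod.card_units, ht, Nat.add_sub_cancel]
  have e : ∀ a : ℕ, (j (γ ^ a) : ZMod (2 ^ (n + 2))) = a := fun a =>
    (ZMod.natCast_eq_natCast_iff _ _ _).2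
    ((pow_eq_pow_iff_modEq.1 (hj _)).of_dvd (o ▸ ⟨2 * t, by ring⟩))
  have q4 : q / 4 = 2 ^ (n + 1) * t := by
    rw [ht, show 2 ^ (n + 3) * t = 4 * (2 ^ (n + 1) * t) by ring]; omega
  have s0 : 0 < 2 ^ (n + 1) * t := by positivity
  have k : ∀ a, γ ^ (a * (q / 4)) = 1 ↔ 4 ∣ a := fun a => by
    rw [← orderOf_dvd_iff_pow_eq_one, o, q4, show 2 ^ (n + 3) * t = 4 * (2 ^ (n + 1) * t) by ring,
      Nat.mul_dvd_mul_iff_right s0]
  refine ⟨fun x => j x, fun x y => by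
    simpa only [pow_add, show ∀ x, γ ^ j x = x from hj, Nat.cast_add] using e (j x + j y),
    ⟨γ ^ 1, (e 1).trans Nat.cast_one⟩, fun x a => ?_, fun x => ?_⟩
  · rw [← hj x, ← pow_add, ← orderOf_dvd_iff_pow_eq_one, o, ← two_mul, pow_succ', mul_assoc,
      Nat.mul_dvd_mul_iff_left two_pos] at a
    exact (ZMod.natCast_eq_zero_iff _ _).2 (dvd_of_mul_right_dvd a)
  have k1 := k (j x)
  have k2 := k (j x * 2)
  rw [mul_right_comm, pow_mul _ _ 2] at k2
  rw [pow_mul, show γ ^ j x = x from hj x, Units.ext_iff] at k1 k2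
  push_cast at k1 k2
  rw [ZMod.val_natCast, Nat.mod_mod_of_dvd _ (show 4 ∣ 2 ^ (n + 2) from ⟨2 ^ n, by ring⟩)]
  refine ⟨fun a => by have := k1.1 a; omega, fun a => ?_⟩
  have := k2.1 (by rw [a]; ring)
  have : ¬ 4 ∣ j x := fun d => by
    have b := k1.2 d
    rw [a, neg_eq_iff_add_eq_zero, one_add_one_eq_two] at b
    have := Nat.le_of_dvd two_pos ((ZMod.natCast_eq_zero_iff 2 q).1 (by exact_mod_cast b))
    omega
  omega

theorem om_fb [Fact q.Prime] (o : Ov l P) (h : l ≠ q) {φ : GQ} (hφ : Fb l P φ) :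
    (om0 q φ : ZMod q) = l := by
  let ζ : 𝓞 Qb := ⟨zt q, (zt_prim q).isIntegral (Fact.out : q.Prime).pos⟩
  have e : ζ ^ q = 1 := RingOfIntegers.ext zt_pow
  have := congrArg Subtype.val (P022E.GW.Unr.root_inj o.2.1 (p_notMem o h)
    (by rw [← smul_pow', e, smul_one]) (by rw [← pow_mul, mul_comm, pow_mul, e, one_pow]) (hφ ζ))
  exact pw_inj ((oz_spec φ).symm.trans (this.trans (pw_nat l).symm))

theorem cast2 {m : ℕ} (h : m ∣ 2 ^ n) (x : ZMod (2 ^ n)) :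
    (x.val : ZMod m) = ZMod.castHom h (ZMod m) x := by simp

/-- the layer of prime conductor -/
structure Lq (q n : ℕ) (e : GQ → ZMod (2 ^ n)) : Prop where
  add : ∀ g h, e (g * h) = e g + e h
  ker : ∀ g, Fx {1} q g → e g = 0
  cj : ∀ k, IsConj k → e k = 0
  par : ∀ g, ((e g).val : ZMod 2) = nu q g
  fro : ∀ p P φ, Ov p P → Fb p P φ → p ≠ q →
    ((p : ZMod q) ^ (q / 4) = 1 → (e φ).val % 4 = 0) ∧
      ((p : ZMod q) ^ (q / 4) = -1 → (e φ).val % 4 = 2)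

theorem ex_lq (hq : q.Prime) (h : q % 2 ^ (n + 3) = 1) : ∃ e, Lq q (n + 2) e := by
  haveI := Fact.mk hq
  obtain ⟨f, f1, ⟨γ, f2⟩, f3, f4⟩ := ex_log h
  have ad : ∀ g k, f (om0 q (g * k)) = f (om0 q g) + f (om0 q k) := fun g k => by rw [map_mul, f1]
  have z : ∀ g ∈ Gz q, f (om0 q g) = 0 := fun g m => by
    rw [show om0 q g = 1 from m, f3 1 (one_mul 1)]
  have cj : ∀ k, IsConj k → f (om0 q k) = 0 := fun k a => f3 _ (by rw [← map_mul, kk a, map_one])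
  refine ⟨fun g => f (om0 q g), ad, fun g a => z g (mem_Gz'.2 (a _ zt_pow)), cj, ?_,
    fun p P φ o a b => om_fb o b a ▸ f4 _⟩
  have d2 : 2 ∣ 2 ^ (n + 2) := ⟨2 ^ (n + 1), by ring⟩
  obtain ⟨k, hk⟩ := ex_k
  obtain ⟨m, sm, e⟩ := ex_nu (x := fun g => ((f (om0 q g)).val : ZMod 2))
    (fun g k => by simp only [cast2 d2, ad, map_add]) (Gz_open (p := q))
    (fun u a => by rw [z u a]; simp) hk (by rw [cj k hk]; simp)
  have i : ∀ l P, Ov l P → l ≠ q → ∀ g, Inert P g → nu m g = 0 := fun l P o a g b => by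
    rw [← e]; simp [z g (inert_gz o a b)]
  have q2 : 2 ≠ q := by
    rintro rfl
    rw [Nat.mod_eq_of_lt (by rw [pow_add]; have := Nat.two_pow_pos n; omega)] at h
    omega
  obtain ⟨P, o⟩ := ex_pl Nat.prime_two
  have m4 := mod_four o sm (i 2 P o q2)
  rcases (Nat.dvd_prime hq).1 (sq_dvd sm fun l hl d => by_contra fun c => by
    obtain ⟨P, o⟩ := ex_pl hl
    obtain ⟨τ, -, t, -⟩ := ex_st o
    have := nu_tau o (by rintro rfl; omega) (Int.squarefree_natCast.2 sm)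
      (Int.natCast_dvd_natCast.2 d) t
    rw [i l P o (fun a => c (a ▸ dvd_rfl)) τ t.1] at this
    exact zero_ne_one this) with rfl | rfl
  · obtain ⟨p, p1, p2, p3⟩ := Nat.forall_exists_prime_gt_and_eq_mod γ.isUnit q
    obtain ⟨P, o⟩ := ex_pl p2
    obtain ⟨-, σ, -, s, -⟩ := ex_st o
    have := congrFun e σ
    rw [Units.ext ((om_fb o p1.ne' s).trans p3), f2, cast2 d2, map_one, Nat.cast_one,
      nu_one_left] at this
    exact absurd this one_ne_zero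
  · exact congrFun e

/-- the layer of composite conductor -/
theorem ex_tq {S Q : Finset ℕ} {q₀ : ℕ} (h0 : q₀ ∉ Q)
    (h : ∀ q ∈ insert q₀ Q, q.Prime ∧ q % 2 ^ (n + 3) = 1 ∧ q ∉ S)
    (h1 : ∀ p ∈ S, (p : ZMod q₀) ^ (q₀ / 4) = -1) (h2 : ∀ q ∈ Q, ∀ p ∈ S, (p : ZMod q) ^ (q / 4) = 1) :
    ∃ e, Tq S (n + 2) (∏ q ∈ insert q₀ Q, q) e := by
  choose! e he using fun q (m : q ∈ insert q₀ Q) => ex_lq (h q m).1 (h q m).2.1
  have m0 := Finset.mem_insert_self q₀ Q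
  have d2 : 2 ∣ 2 ^ (n + 2) := ⟨2 ^ (n + 1), by ring⟩
  have d4 : 4 ∣ 2 ^ (n + 2) := ⟨2 ^ n, by ring⟩
  have sq : Squarefree (∏ q ∈ insert q₀ Q, q) := Finset.squarefree_prod_of_pairwise_isCoprime
    (fun a b c d e => Nat.coprime_iff_isRelPrime.1 ((Nat.coprime_primes (h a b).1 (h c d).1).2 e))
    fun a b => (h a b).1.prime.squarefree
  have dv : ∀ x : ℕ, x.Prime → x ∣ ∏ q ∈ insert q₀ Q, q → x ∈ insert q₀ Q := fun x hx d => by
    obtain ⟨i, m, d⟩ := (Nat.prime_iff.1 hx).exists_mem_finset_dvd d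
    rwa [(Nat.prime_dvd_prime_iff_eq hx (h i m).1).1 d]
  have ad : ∀ g k, ∑ q ∈ insert q₀ Q, e q (g * k) =
      ∑ q ∈ insert q₀ Q, e q g + ∑ q ∈ insert q₀ Q, e q k := fun g k => by
    rw [← Finset.sum_add_distrib]
    exact Finset.sum_congr rfl fun q m => (he q m).add g k
  have par : ∀ g, ((∑ q ∈ insert q₀ Q, e q g).val : ZMod 2) = nu (∏ q ∈ insert q₀ Q, q : ℕ) g :=
    fun g => by
      rw [cast2 d2, map_sum, Nat.cast_prod, nu_prod _ _ fun q m =>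
        Int.natCast_ne_zero.2 (h q m).1.ne_zero]
      exact Finset.sum_congr rfl fun q m => (cast2 d2 _).symm.trans ((he q m).par g)
  refine ⟨fun g => ∑ q ∈ insert q₀ Q, e q g, ad, fun g a => Finset.sum_eq_zero fun q m =>
    (he q m).ker g fun y b => a y ?_, fun k a => Finset.sum_eq_zero fun q m => (he q m).cj k a, sq,
    (h q₀ m0).1.one_lt.trans_le (Nat.le_of_dvd (Nat.pos_of_ne_zero sq.ne_zero)
      (Finset.dvd_prod_of_mem _ m0)), fun q a d => (h q (dv q a d)).2, fun q P o d => ?_, par,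
    fun p m P φ o a => ?_⟩
  · obtain ⟨t, ht⟩ := Finset.dvd_prod_of_mem (fun q => q) m
    show _ = 1
    rw [ht, pow_mul, show y ^ q = 1 from b, one_pow]
  · obtain ⟨τ, -, t, -⟩ := ex_st o
    have q2 : q ≠ 2 := by
      rintro rfl
      have := (h 2 (dv 2 o.1 d)).2.1
      rw [Nat.mod_eq_of_lt (by rw [pow_add]; have := Nat.two_pow_pos n; omega)] at this
      omega
    have a := par τ
    rw [nu_tau o q2 (Int.squarefree_natCast.2 sq) (Int.natCast_dvd_natCast.2 d) t,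
      ZMod.natCast_eq_one_iff_odd] at a
    obtain ⟨u, hu⟩ := (ZMod.isUnit_iff_coprime _ (2 ^ (n + 2))).2
      (Nat.Coprime.pow_right _ a.coprime_two_right)
    rw [ZMod.natCast_zmod_val] at hu
    have pw : ∀ j : ℕ, Inert P (τ ^ j) ∧ ∑ q ∈ insert q₀ Q, e q (τ ^ j) = j * u := fun j => by
      induction j with
      | zero => exact ⟨pow_zero τ ▸ inert_one P, by simpa using ad 1 1⟩
      | succ j ih => exact ⟨pow_succ τ j ▸ inert_mul ih.1 t.1, by
          rw [pow_succ τ, ad, ih.2, ← hu]; push_cast; ring⟩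
    exact ⟨_, (pw (u⁻¹ : (ZMod _)ˣ).val.val).1, by
      rw [(pw _).2, ZMod.natCast_zmod_val, Units.inv_mul]⟩
  · have ne : ∀ q ∈ insert q₀ Q, p ≠ q := fun q b c => (h q b).2.2 (c ▸ m)
    refine (ZMod.natCast_eq_natCast_iff' _ 2 4).1 ?_
    rw [cast2 d4, map_sum, Finset.sum_insert h0, Finset.sum_eq_zero fun q b => ?_, add_zero,
      ← cast2 d4, ZMod.natCast_eq_natCast_iff', ((he q₀ m0).fro p P φ o a (ne _ m0)).2 (h1 p m)]
    have b' := Finset.mem_insert_of_mem (b := q₀) b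
    rw [← cast2 d4, ZMod.natCast_eq_zero_iff]
    exact Nat.dvd_of_mod_eq_zero (((he q b').fro p P φ o a (ne _ b')).1 (h2 q b p m))

end Vale.Agent.P014T.Mu
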